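import Mathlib

/-!
Definitions for problem P209: symplectic embeddings of closed balls in complex n-space.
-/

namespace Vale.Agent.P209

open scoped ContDiff

/-- The closed ball of capacity `R` in complex `n`-space: all `z` with
`π * (|z_1|^2 + ... + |z_n|^2) ≤ R`. -/
def closedBallCap (n : ℕ) (R : ℝ) : Set (Fin n → ℂ) :=
  {z | Real.pi * ∑ j, ‖z j‖ ^ 2 ≤ R}

/-- The open ball of capacity `R` (the interior of the closed one):
all `z` with `π * (|z_1|^2 + ... + |z_n|^2) < R`. -/
def openBallCap (n : ℕ) (R : ℝ) : Set (Fin n → ℂ) :=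
  {z | Real.pi * ∑ j, ‖z j‖ ^ 2 < R}

/-- The standard symplectic form `∑_j dx_j ∧ dy_j` on complex `n`-space, `z_j = x_j + i y_j`,
evaluated on two tangent vectors. -/
def omega {n : ℕ} (v w : Fin n → ℂ) : ℝ :=
  ∑ j, ((v j).re * (w j).im - (v j).im * (w j).re)

/-- `f` restricts to a symplectic embedding of the set `K`: on some open neighbourhood `U` of `K`
it is smooth, a topological embedding, and it pulls the standard symplectic form back to itself. -/
def IsSymplecticEmbedding {n : ℕ} (K : Set (Fin n → ℂ)) (f : (Fin n → ℂ) → (Fin n → ℂ)) : Prop :=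
  ∃ U : Set (Fin n → ℂ), IsOpen U ∧ K ⊆ U ∧ ContDiffOn ℝ ∞ f U ∧
    Topology.IsEmbedding (fun z : U => f z) ∧
    ∀ z ∈ U, ∀ v w : Fin n → ℂ, omega (fderiv ℝ f z v) (fderiv ℝ f z w) = omega v w

/-- There is a symplectic embedding of the disjoint union of the closed balls of capacities
`r i` into the open ball of capacity `R`: symplectic embeddings of the single closed balls whose
images are pairwise disjoint and contained in the open ball. -/
def BallPacking (n : ℕ) {ι : Type} (r : ι → ℝ) (R : ℝ) : Prop :=
  ∃ f : ι → (Fin n → ℂ) → (Fin n → ℂ),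
    (∀ i, IsSymplecticEmbedding (closedBallCap n (r i)) (f i)) ∧
    (∀ i, f i '' closedBallCap n (r i) ⊆ openBallCap n R) ∧
    (∀ i j, i ≠ j → Disjoint (f i '' closedBallCap n (r i)) (f j '' closedBallCap n (r j)))

end Vale.Agent.P209
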