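import Mathlib

/-!
Area preserving maps of the complex plane: half twists and their compositions.
-/

namespace Vale.Agent.P209

open scoped ContDiff
open Complex

/-- The standard area form on `ℂ`. -/
def om (v w : ℂ) : ℝ := v.re * w.im - v.im * w.re

lemma om_mul_of_norm_one (e a b : ℂ) (he : e.re ^ 2 + e.im ^ 2 = 1) :
    om (e * a) (e * b) = om a b := by
  simp only [om, mul_re, mul_im]
  linear_combination (a.re * b.im - a.im * b.re) * he

/-- A smooth injective area preserving self map of the plane. -/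
structure AreaMap (σ : ℂ → ℂ) : Prop where
  smooth : ContDiff ℝ ∞ σ
  inj : Function.Injective σ
  area : ∀ z v w, om (fderiv ℝ σ z v) (fderiv ℝ σ z w) = om v w

lemma AreaMap.id : AreaMap (fun z => z) where
  smooth := contDiff_id
  inj := fun _ _ h => h
  area := by intro z v w; simp

lemma AreaMap.comp {σ τ : ℂ → ℂ} (hσ : AreaMap σ) (hτ : AreaMap τ) :
    AreaMap (fun z => σ (τ z)) where
  smooth := hσ.smooth.comp hτ.smooth
  inj := hσ.inj.comp hτ.inj
  area := by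
    intro z v w
    have h1 : DifferentiableAt ℝ σ (τ z) := hσ.smooth.differentiable (by simp) _
    have h2 : DifferentiableAt ℝ τ z := hτ.smooth.differentiable (by simp) _
    have : fderiv ℝ (fun z => σ (τ z)) z = (fderiv ℝ σ (τ z)).comp (fderiv ℝ τ z) :=
      fderiv_comp z h1 h2
    rw [this]
    simp only [ContinuousLinearMap.comp_apply]
    rw [hσ.area, hτ.area]

/-- The twist with center `c` and angle profile `φ`. -/
noncomputable def twist (c : ℂ) (φ : ℝ → ℝ) (z : ℂ) : ℂ :=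
  c + exp ((φ ((z - c).re ^ 2 + (z - c).im ^ 2) : ℝ) * I) * (z - c)

lemma exp_re_sq_add_im_sq (t : ℝ) : (exp ((t : ℂ) * I)).re ^ 2 + (exp ((t : ℂ) * I)).im ^ 2 = 1 := by
  rw [exp_ofReal_mul_I_re, exp_ofReal_mul_I_im]
  exact Real.cos_sq_add_sin_sq t

lemma twist_smooth (c : ℂ) {φ : ℝ → ℝ} (hφ : ContDiff ℝ ∞ φ) : ContDiff ℝ ∞ (twist c φ) := by
  unfold twist
  have hre : ContDiff ℝ ∞ (fun z : ℂ => (z - c).re) :=
    Complex.reCLM.contDiff.comp (contDiff_id.sub contDiff_const)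
  have him : ContDiff ℝ ∞ (fun z : ℂ => (z - c).im) :=
    Complex.imCLM.contDiff.comp (contDiff_id.sub contDiff_const)
  have h1 : ContDiff ℝ ∞ (fun z : ℂ => φ ((z - c).re ^ 2 + (z - c).im ^ 2)) :=
    hφ.comp ((hre.pow 2).add (him.pow 2))
  have h2 : ContDiff ℝ ∞ (fun z : ℂ => ((φ ((z - c).re ^ 2 + (z - c).im ^ 2) : ℝ) : ℂ)) :=
    Complex.ofRealCLM.contDiff.comp h1
  have h3 : ContDiff ℝ ∞ (fun z : ℂ => ((φ ((z - c).re ^ 2 + (z - c).im ^ 2) : ℝ) : ℂ) * I) :=
    h2.mul contDiff_const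
  exact contDiff_const.add (h3.cexp.mul (contDiff_id.sub contDiff_const))

lemma twist_sub_normSq (c : ℂ) (φ : ℝ → ℝ) (z : ℂ) :
    (twist c φ z - c).re ^ 2 + (twist c φ z - c).im ^ 2 = (z - c).re ^ 2 + (z - c).im ^ 2 := by
  have h : twist c φ z - c = exp ((φ ((z - c).re ^ 2 + (z - c).im ^ 2) : ℝ) * I) * (z - c) := by
    unfold twist; ring
  rw [h]
  generalize φ ((z - c).re ^ 2 + (z - c).im ^ 2) = t
  have := exp_re_sq_add_im_sq t
  simp only [mul_re, mul_im]
  linear_combination ((z - c).re ^ 2 + (z - c).im ^ 2) * this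

lemma norm_twist_sub (c : ℂ) (φ : ℝ → ℝ) (z : ℂ) : ‖twist c φ z - c‖ = ‖z - c‖ := by
  have h := twist_sub_normSq c φ z
  rw [← Real.sqrt_sq (norm_nonneg (twist c φ z - c)), ← Real.sqrt_sq (norm_nonneg (z - c)),
    Complex.sq_norm, Complex.sq_norm, Complex.normSq_apply, Complex.normSq_apply]
  congr 1
  linarith

lemma twist_inj (c : ℂ) (φ : ℝ → ℝ) : Function.Injective (twist c φ) := by
  intro z w h
  have h1 := twist_sub_normSq c φ z
  have h2 := twist_sub_normSq c φ w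
  rw [h] at h1
  have h3 : (z - c).re ^ 2 + (z - c).im ^ 2 = (w - c).re ^ 2 + (w - c).im ^ 2 := by
    rw [← h1, ← h2]
  unfold twist at h
  rw [h3] at h
  have h4 := add_left_cancel h
  have h5 := mul_left_cancel₀ (exp_ne_zero _) h4
  exact sub_left_injective h5

lemma twist_hasFDerivAt (c : ℂ) {φ : ℝ → ℝ} (hφ : ContDiff ℝ ∞ φ) (z v : ℂ) :
    ∃ s : ℝ, fderiv ℝ (twist c φ) z v =
      exp ((φ ((z - c).re ^ 2 + (z - c).im ^ 2) : ℝ) * I) *
        (v + (2 * s * ((z - c).re * v.re + (z - c).im * v.im) : ℝ) * I * (z - c)) ∧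
      s = deriv φ ((z - c).re ^ 2 + (z - c).im ^ 2) := by
  refine ⟨_, ?_, rfl⟩
  -- compute along the line
  have hd : DifferentiableAt ℝ (twist c φ) z := (twist_smooth c hφ).differentiable (by simp) z
  have hline : HasDerivAt (fun t : ℝ => z + (t : ℂ) * v) v 0 := by
    have h1 : HasDerivAt (fun t : ℝ => (t : ℂ)) 1 0 := Complex.ofRealCLM.hasDerivAt
    simpa using (h1.mul_const v).const_add z
  have h1 : HasDerivAt (fun t : ℝ => twist c φ (z + (t : ℂ) * v)) (fderiv ℝ (twist c φ) z v) 0 := by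
    have h2 : HasFDerivAt (twist c φ) (fderiv ℝ (twist c φ) z) (z + ((0 : ℝ) : ℂ) * v) := by
      simpa using hd.hasFDerivAt
    exact HasFDerivAt.comp_hasDerivAt (f := fun t : ℝ => z + (t : ℂ) * v) (0 : ℝ) h2 hline
  have hdφ : ∀ s, HasDerivAt φ (deriv φ s) s := fun s =>
    (hφ.differentiable (by simp) s).hasDerivAt
  have hre : HasDerivAt (fun t : ℝ => (z + (t : ℂ) * v - c).re) v.re 0 := by
    exact Complex.reCLM.hasFDerivAt.comp_hasDerivAt (0 : ℝ) (hline.sub_const c)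
  have him : HasDerivAt (fun t : ℝ => (z + (t : ℂ) * v - c).im) v.im 0 := by
    exact Complex.imCLM.hasFDerivAt.comp_hasDerivAt (0 : ℝ) (hline.sub_const c)
  have hsq : HasDerivAt (fun t : ℝ => (z + (t : ℂ) * v - c).re ^ 2 + (z + (t : ℂ) * v - c).im ^ 2)
      (2 * (z - c).re * v.re + 2 * (z - c).im * v.im) 0 := by
    have := (hre.pow 2).add (him.pow 2)
    refine this.congr_deriv ?_
    simp
  have hphi : HasDerivAt (fun t : ℝ => φ ((z + (t : ℂ) * v - c).re ^ 2 + (z + (t : ℂ) * v - c).im ^ 2))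
      (deriv φ ((z - c).re ^ 2 + (z - c).im ^ 2) * (2 * (z - c).re * v.re + 2 * (z - c).im * v.im)) 0 := by
    have h3 := hdφ ((z - c).re ^ 2 + (z - c).im ^ 2)
    have h4 : HasDerivAt φ (deriv φ ((z - c).re ^ 2 + (z - c).im ^ 2))
      ((z + ((0 : ℝ) : ℂ) * v - c).re ^ 2 + (z + ((0 : ℝ) : ℂ) * v - c).im ^ 2) := by simpa using h3
    exact h4.comp (0 : ℝ) hsq
  have hphi' := hphi.ofReal_comp
  have hexp := (hphi'.mul_const I).cexp
  have htot := (hexp.mul (hline.sub_const c)).const_add c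
  have huniq := h1.unique (htot.congr_of_eventuallyEq ?_)
  · rw [huniq]
    simp
    ring
  · exact Filter.Eventually.of_forall fun t => rfl

lemma twist_area (c : ℂ) {φ : ℝ → ℝ} (hφ : ContDiff ℝ ∞ φ) (z v w : ℂ) :
    om (fderiv ℝ (twist c φ) z v) (fderiv ℝ (twist c φ) z w) = om v w := by
  obtain ⟨s, h1, hs⟩ := twist_hasFDerivAt c hφ z v
  obtain ⟨s', h2, hs'⟩ := twist_hasFDerivAt c hφ z w
  rw [← hs] at hs'
  subst hs'
  rw [h1, h2, om_mul_of_norm_one _ _ _ (exp_re_sq_add_im_sq _)]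
  simp only [om, add_re, add_im, mul_re, mul_im, ofReal_re, ofReal_im, I_re, I_im]
  ring

lemma twist_areaMap (c : ℂ) {φ : ℝ → ℝ} (hφ : ContDiff ℝ ∞ φ) : AreaMap (twist c φ) :=
  ⟨twist_smooth c hφ, twist_inj c φ, twist_area c hφ⟩

end Vale.Agent.P209
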