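import Mathlib
import Vale.Agent.P209.Twist

/-!
An area preserving map that keeps a disc away from the origin and hardly increases the norm.
-/

namespace Vale.Agent.P209

open scoped ContDiff
open Complex

/-- Angle profile of a half twist: the value is `π` for `s ≤ d ^ 2` and `0` for `s ≥ (2 d) ^ 2`. -/
noncomputable def prof (d : ℝ) (s : ℝ) : ℝ :=
  Real.pi * Real.smoothTransition (((2 * d) ^ 2 - s) / (3 * d ^ 2))

lemma prof_smooth (d : ℝ) : ContDiff ℝ ∞ (prof d) := by
  unfold prof
  exact contDiff_const.mul (Real.smoothTransition.contDiff.comp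
    ((contDiff_const.sub contDiff_id).div_const _))

lemma prof_inner {d s : ℝ} (hd : 0 < d) (hs : s ≤ d ^ 2) : prof d s = Real.pi := by
  unfold prof
  rw [Real.smoothTransition.one_of_one_le, mul_one]
  rw [le_div_iff₀ (by positivity)]
  nlinarith

lemma prof_outer {d s : ℝ} (hd : 0 < d) (hs : (2 * d) ^ 2 ≤ s) : prof d s = 0 := by
  unfold prof
  rw [Real.smoothTransition.zero_of_nonpos, mul_zero]
  exact div_nonpos_of_nonpos_of_nonneg (by linarith) (by positivity)

lemma twist_swap {d : ℝ} (hd : 0 < d) (c : ℝ) :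
    twist (c : ℂ) (prof d) ((c + d : ℝ) : ℂ) = ((c - d : ℝ) : ℂ) := by
  unfold twist
  rw [prof_inner hd]
  · rw [exp_pi_mul_I]
    push_cast
    ring
  · simp

lemma twist_outer {d : ℝ} (hd : 0 < d) (c z : ℂ) (h : 2 * d ≤ ‖z - c‖) :
    twist c (prof d) z = z := by
  unfold twist
  rw [prof_outer hd]
  · simp
  · have : (z - c).re ^ 2 + (z - c).im ^ 2 = ‖z - c‖ ^ 2 := by
      rw [Complex.sq_norm, Complex.normSq_apply]; ring
    rw [this]
    have h2 : 0 ≤ 2 * d := by linarith
    exact pow_le_pow_left₀ h2 h 2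

/-- Push the point `w` towards the origin along the real axis in steps of length `2 d`. -/
noncomputable def push (w d : ℝ) : ℕ → ℂ → ℂ
  | 0 => fun z => z
  | (j + 1) => fun z => twist ((w - (2 * j + 1) * d : ℝ) : ℂ) (prof d) (push w d j z)

lemma push_areaMap (w d : ℝ) (j : ℕ) : AreaMap (push w d j) := by
  induction j with
  | zero => exact AreaMap.id
  | succ j ih => exact (twist_areaMap _ (prof_smooth d)).comp ih

lemma push_point {w d : ℝ} (hd : 0 < d) (j : ℕ) :
    push w d j (w : ℂ) = ((w - 2 * j * d : ℝ) : ℂ) := by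
  induction j with
  | zero => simp [push]
  | succ j ih =>
    simp only [push]
    rw [ih]
    have h := twist_swap hd (w - (2 * j + 1) * d)
    have e1 : (w - (2 * j + 1) * d + d : ℝ) = w - 2 * j * d := by ring
    have e2 : (w - (2 * j + 1) * d - d : ℝ) = w - 2 * ((j + 1 : ℕ) : ℝ) * d := by
      push_cast; ring
    rw [e1, e2] at h
    exact h

lemma push_bound {w d : ℝ} (hd : 0 < d) (N : ℕ) (hN : w = 2 * N * d) (z : ℂ) (j : ℕ) (hj : j ≤ N) :
    push w d j z = z ∨
      (‖push w d j z‖ ≤ ‖z‖ + 4 * d ∧ w - (2 * j + 1) * d ≤ ‖z‖ + 2 * d) := by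
  induction j with
  | zero => left; rfl
  | succ j ih =>
    have ih' := ih (by omega)
    have hjN : (j : ℝ) + 1 ≤ N := by exact_mod_cast hj
    set c : ℝ := w - (2 * j + 1) * d with hc
    have hcpos : 0 ≤ c := by
      rw [hc, hN]
      nlinarith
    have hstep : push w d (j + 1) z = twist (c : ℂ) (prof d) (push w d j z) := rfl
    have hnext : w - (2 * ((j + 1 : ℕ) : ℝ) + 1) * d ≤ c := by
      rw [hc]; push_cast; nlinarith
    by_cases hfar : 2 * d ≤ ‖push w d j z - (c : ℂ)‖
    · rw [hstep, twist_outer hd _ _ hfar]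
      rcases ih' with h | ⟨h1, h2⟩
      · left; exact h
      · right
        exact ⟨h1, by linarith⟩
    · right
      push Not at hfar
      have hn : ‖push w d (j + 1) z‖ ≤ c + 2 * d := by
        have h1 : ‖push w d (j + 1) z - (c : ℂ)‖ = ‖push w d j z - (c : ℂ)‖ := by
          rw [hstep]; exact norm_twist_sub _ _ _
        have h2 : ‖push w d (j + 1) z‖ ≤ ‖push w d (j + 1) z - (c : ℂ)‖ + ‖(c : ℂ)‖ := by
          have := norm_add_le (push w d (j + 1) z - (c : ℂ)) (c : ℂ)
          simpa using this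
        have h3 : ‖(c : ℂ)‖ = c := by
          rw [Complex.norm_real, Real.norm_of_nonneg hcpos]
        linarith
      have hcz : c ≤ ‖z‖ + 2 * d := by
        rcases ih' with h | ⟨h1, h2⟩
        · rw [h] at hfar
          have h2 : ‖(c : ℂ)‖ ≤ ‖z - (c : ℂ)‖ + ‖z‖ := by
            have := norm_sub_le z (z - (c : ℂ))
            have e : z - (z - (c : ℂ)) = c := by ring
            rw [e] at this
            linarith
          have h3 : ‖(c : ℂ)‖ = c := by
            rw [Complex.norm_real, Real.norm_of_nonneg hcpos]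
          linarith
        · exact h2
      exact ⟨by linarith, by linarith⟩

/-- The planar lemma: an area preserving map of the plane that does not send any point of the disc
of radius `ρ` to the origin and increases norms by at most `ε`. -/
lemma exists_areaMap_avoid_zero (ρ ε : ℝ) (hρ : 0 ≤ ρ) (hε : 0 < ε) :
    ∃ σ : ℂ → ℂ, AreaMap σ ∧ (∀ z, ‖z‖ ≤ ρ → σ z ≠ 0) ∧ ∀ z, ‖σ z‖ ≤ ‖z‖ + ε := by
  obtain ⟨N, hN⟩ := exists_nat_gt (2 * (ρ + 1) / ε)
  have hNpos : 0 < (N : ℝ) := lt_trans (by positivity) hN
  set w : ℝ := ρ + 1 with hw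
  set d : ℝ := w / (2 * N) with hd
  have hdpos : 0 < d := by positivity
  have hwd : w = 2 * N * d := by
    rw [hd]; field_simp
  have hde : 4 * d ≤ ε := by
    rw [div_lt_iff₀ hε] at hN
    have : 4 * d * N = 2 * w := by
      rw [hd]; field_simp; ring
    have h2 : 4 * d * N ≤ ε * N := by rw [this]; linarith
    exact le_of_mul_le_mul_right h2 hNpos
  refine ⟨push w d N, push_areaMap w d N, ?_, ?_⟩
  · intro z hz h0
    have h1 : push w d N (w : ℂ) = 0 := by
      rw [push_point hdpos N]
      have : w - 2 * N * d = 0 := by linarith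
      rw [this]; simp
    have h2 : z = (w : ℂ) := (push_areaMap w d N).inj (h0.trans h1.symm)
    rw [h2, Complex.norm_real, Real.norm_of_nonneg (by linarith)] at hz
    linarith
  · intro z
    rcases push_bound hdpos N hwd z N le_rfl with h | ⟨h, -⟩
    · rw [h]; linarith
    · linarith

end Vale.Agent.P209
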