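import Mathlib
import Vale.Agent.P209.Defs

/-!
The map of the open torus part of complex n-space induced by an integral affine map of the
moment coordinates `π |z_j| ^ 2`.
-/

namespace Vale.Agent.P209

open scoped ContDiff
open Complex

variable {n : ℕ}

/-- The moment coordinates. -/
noncomputable def mu (z : Fin n → ℂ) (j : Fin n) : ℝ := Real.pi * ‖z j‖ ^ 2

/-- Integral linear map plus translation. -/
def affMap (A : Matrix (Fin n) (Fin n) ℤ) (b : Fin n → ℝ) (x : Fin n → ℝ) (j : Fin n) : ℝ :=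
  ∑ k, (A j k : ℝ) * x k + b j

/-- The torus map. -/
noncomputable def torusMap (A C : Matrix (Fin n) (Fin n) ℤ) (b : Fin n → ℝ)
    (z : Fin n → ℂ) (j : Fin n) : ℂ :=
  (Real.sqrt (affMap A b (mu z) j / Real.pi) : ℝ) * ∏ k, (z k / (‖z k‖ : ℝ)) ^ (C j k)

lemma contDiffAt_zpow_aux {E : Type*} [NormedAddCommGroup E] [NormedSpace ℝ E] {g : E → ℂ} {x : E}
    (hg : ContDiffAt ℝ ∞ g x) (h0 : g x ≠ 0) (m : ℤ) : ContDiffAt ℝ ∞ (fun y => g y ^ m) x := by
  cases m with
  | ofNat m =>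
    simp only [Int.ofNat_eq_natCast, zpow_natCast]
    exact hg.pow m
  | negSucc m =>
    simp only [zpow_negSucc]
    exact (hg.pow (m + 1)).inv (pow_ne_zero _ h0)

lemma contDiffAt_normC {E : Type*} [NormedAddCommGroup E] [NormedSpace ℝ E] {g : E → ℂ} {x : E}
    (hg : ContDiffAt ℝ ∞ g x) (h0 : g x ≠ 0) : ContDiffAt ℝ ∞ (fun y => ‖g y‖) x :=
  hg.norm ℝ h0

lemma torusMap_contDiffAt (A C : Matrix (Fin n) (Fin n) ℤ) (b : Fin n → ℝ) (z : Fin n → ℂ)
    (hz : ∀ k, z k ≠ 0) (hpos : ∀ j, 0 < affMap A b (mu z) j) :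
    ContDiffAt ℝ ∞ (torusMap A C b) z := by
  rw [contDiffAt_pi]
  intro j
  unfold torusMap
  have hcoord : ∀ k, ContDiffAt ℝ ∞ (fun z : Fin n → ℂ => z k) z := fun k =>
    (contDiff_apply ℝ ℂ k).contDiffAt
  have hnorm : ∀ k, ContDiffAt ℝ ∞ (fun z : Fin n → ℂ => ‖z k‖) z := fun k =>
    contDiffAt_normC (hcoord k) (hz k)
  have hmu : ∀ k, ContDiffAt ℝ ∞ (fun z : Fin n → ℂ => mu z k) z := fun k =>
    contDiffAt_const.mul ((hnorm k).pow 2)
  have haff : ContDiffAt ℝ ∞ (fun z : Fin n → ℂ => affMap A b (mu z) j) z := by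
    unfold affMap
    exact (ContDiffAt.sum fun k _ => contDiffAt_const.mul (hmu k)).add contDiffAt_const
  have hsqrt : ContDiffAt ℝ ∞ (fun z : Fin n → ℂ => Real.sqrt (affMap A b (mu z) j / Real.pi)) z := by
    apply (haff.div_const _).sqrt
    have := hpos j
    have := Real.pi_pos
    positivity
  have h1 : ContDiffAt ℝ ∞
      (fun z : Fin n → ℂ => ((Real.sqrt (affMap A b (mu z) j / Real.pi) : ℝ) : ℂ)) z :=
    Complex.ofRealCLM.contDiff.contDiffAt.comp z hsqrt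
  have h2 : ContDiffAt ℝ ∞ (fun z : Fin n → ℂ => ∏ k, (z k / (‖z k‖ : ℝ)) ^ (C j k)) z := by
    apply contDiffAt_prod
    intro k _
    apply contDiffAt_zpow_aux
    · simp only [div_eq_mul_inv]
      apply (hcoord k).mul
      apply ContDiffAt.inv
      · exact Complex.ofRealCLM.contDiff.contDiffAt.comp z (hnorm k)
      · simpa using hz k
    · have h : ((‖z k‖ : ℝ) : ℂ) ≠ 0 := by simpa using hz k
      exact div_ne_zero (hz k) h
  exact h1.mul h2

lemma sqrt_exp_hasDerivAt (X ξ θ η : ℝ) (hX : 0 < X) :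
    HasDerivAt (fun t : ℝ => ((Real.sqrt ((X + t * ξ) / Real.pi) : ℝ) : ℂ) *
      exp (((θ + t * η : ℝ) : ℂ) * I))
      (((Real.sqrt (X / Real.pi) : ℝ) : ℂ) * exp ((θ : ℂ) * I) *
        (((ξ / (2 * X) : ℝ) : ℂ) + (η : ℂ) * I)) 0 := by
  have hpi := Real.pi_pos
  have h1 : HasDerivAt (fun t : ℝ => (X + t * ξ) / Real.pi) (ξ / Real.pi) 0 := by
    have := (((hasDerivAt_id (0 : ℝ)).mul_const ξ).const_add X).div_const Real.pi
    simpa using this
  have h2 : HasDerivAt (fun t : ℝ => Real.sqrt ((X + t * ξ) / Real.pi))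
      (ξ / Real.pi / (2 * Real.sqrt (X / Real.pi))) 0 := by
    have := h1.sqrt (by simp [hX.ne'])
    simpa using this
  have h3 := h2.ofReal_comp
  have h4 : HasDerivAt (fun t : ℝ => (θ + t * η : ℝ)) η 0 := by
    have := ((hasDerivAt_id (0 : ℝ)).mul_const η).const_add θ
    simpa using this
  have h5 := (h4.ofReal_comp.mul_const I).cexp
  have h6 := h3.mul h5
  refine h6.congr_deriv ?_
  have hs : Real.sqrt (X / Real.pi) ≠ 0 := (Real.sqrt_pos.mpr (by positivity)).ne'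
  have hsq : Real.sqrt (X / Real.pi) * Real.sqrt (X / Real.pi) = X / Real.pi :=
    Real.mul_self_sqrt (by positivity)
  have e1 : ξ / Real.pi / (2 * Real.sqrt (X / Real.pi)) =
      Real.sqrt (X / Real.pi) * (ξ / (2 * X)) := by
    rw [div_div, div_eq_iff (by positivity)]
    have : Real.sqrt (X / Real.pi) * (ξ / (2 * X)) * (Real.pi * (2 * Real.sqrt (X / Real.pi))) =
      (Real.sqrt (X / Real.pi) * Real.sqrt (X / Real.pi)) * (ξ / (2 * X)) * (2 * Real.pi) := by ring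
    rw [this, hsq]
    field_simp
  rw [e1]
  simp only [zero_mul, add_zero]
  push_cast
  ring

lemma phase_zpow {s θ : ℝ} (hs : 0 < s) (c : ℤ) :
    (((s : ℝ) : ℂ) * exp ((θ : ℂ) * I) / ((‖((s : ℝ) : ℂ) * exp ((θ : ℂ) * I)‖ : ℝ) : ℂ)) ^ c =
      exp (((c : ℝ) * θ : ℝ) * I) := by
  have h1 : ‖((s : ℝ) : ℂ) * exp ((θ : ℂ) * I)‖ = s := by
    rw [norm_mul, Complex.norm_exp_ofReal_mul_I, mul_one, Complex.norm_real,
      Real.norm_of_nonneg hs.le]
  rw [h1]
  have hs' : ((s : ℝ) : ℂ) ≠ 0 := by exact_mod_cast hs.ne'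
  rw [mul_div_cancel_left₀ _ hs', ← Complex.exp_int_mul]
  congr 1
  push_cast
  ring

/-- The path used to compute derivatives in action angle coordinates. -/
noncomputable def path (x θ ξ η : Fin n → ℝ) (t : ℝ) (k : Fin n) : ℂ :=
  ((Real.sqrt ((x k + t * ξ k) / Real.pi) : ℝ) : ℂ) * exp (((θ k + t * η k : ℝ) : ℂ) * I)

lemma path_mu {x θ ξ η : Fin n → ℝ} {t : ℝ} (k : Fin n) (h : 0 < x k + t * ξ k) :
    mu (path x θ ξ η t) k = x k + t * ξ k := by
  unfold mu path
  have hpi := Real.pi_pos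
  rw [norm_mul, Complex.norm_exp_ofReal_mul_I, mul_one, Complex.norm_real, Real.norm_of_nonneg
    (Real.sqrt_nonneg _), Real.sq_sqrt (by positivity)]
  field_simp

lemma torusMap_path (A C : Matrix (Fin n) (Fin n) ℤ) (b : Fin n → ℝ)
    {x θ ξ η : Fin n → ℝ} {t : ℝ} (h : ∀ k, 0 < x k + t * ξ k) (j : Fin n) :
    torusMap A C b (path x θ ξ η t) j =
      ((Real.sqrt ((affMap A b x j + t * ∑ k, (A j k : ℝ) * ξ k) / Real.pi) : ℝ) : ℂ) *
      exp (((∑ k, (C j k : ℝ) * θ k + t * ∑ k, (C j k : ℝ) * η k : ℝ) : ℂ) * I) := by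
  unfold torusMap
  have hmu : mu (path x θ ξ η t) = fun k => x k + t * ξ k := by
    funext k; exact path_mu k (h k)
  rw [hmu]
  have h1 : affMap A b (fun k => x k + t * ξ k) j =
      affMap A b x j + t * ∑ k, (A j k : ℝ) * ξ k := by
    unfold affMap
    rw [Finset.mul_sum]
    have : ∀ k, (A j k : ℝ) * (x k + t * ξ k) = (A j k : ℝ) * x k + t * ((A j k : ℝ) * ξ k) := by
      intro k; ring
    simp only [this, Finset.sum_add_distrib]
    ring
  rw [h1]
  congr 1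
  have h2 : ∀ k, (path x θ ξ η t k / ((‖path x θ ξ η t k‖ : ℝ) : ℂ)) ^ (C j k) =
      exp ((((C j k : ℝ) * (θ k + t * η k) : ℝ) : ℂ) * I) := by
    intro k
    unfold path
    exact phase_zpow (Real.sqrt_pos.mpr (div_pos (h k) Real.pi_pos)) (C j k)
  simp only [h2]
  rw [← Complex.exp_sum]
  congr 1
  rw [← Finset.sum_mul]
  congr 1
  push_cast
  rw [Finset.mul_sum, ← Finset.sum_add_distrib]
  apply Finset.sum_congr rfl
  intro k _
  ring

/-- The action component of a tangent vector. -/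
noncomputable def xiOf (z v : Fin n → ℂ) (k : Fin n) : ℝ :=
  2 * Real.pi * ((z k).re * (v k).re + (z k).im * (v k).im)

/-- The angle component of a tangent vector. -/
noncomputable def etaOf (z v : Fin n → ℂ) (k : Fin n) : ℝ :=
  ((z k).re * (v k).im - (z k).im * (v k).re) / ‖z k‖ ^ 2

lemma path_zero (z : Fin n → ℂ) (ξ η : Fin n → ℝ) :
    path (mu z) (fun k => arg (z k)) ξ η 0 = z := by
  funext k
  unfold path mu
  have hpi := Real.pi_pos
  have h1 : (Real.pi * ‖z k‖ ^ 2 + 0 * ξ k) / Real.pi = ‖z k‖ ^ 2 := by field_simp; ring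
  rw [h1, Real.sqrt_sq (norm_nonneg _)]
  simp only [zero_mul, add_zero]
  exact Complex.norm_mul_exp_arg_mul_I (z k)

lemma mu_pos {z : Fin n → ℂ} (hz : ∀ k, z k ≠ 0) (k : Fin n) : 0 < mu z k := by
  unfold mu
  have := norm_pos_iff.mpr (hz k)
  have := Real.pi_pos
  positivity

lemma path_hasDerivAt {z : Fin n → ℂ} (hz : ∀ k, z k ≠ 0) (v : Fin n → ℂ) :
    HasDerivAt (path (mu z) (fun k => arg (z k)) (xiOf z v) (etaOf z v)) v 0 := by
  rw [hasDerivAt_pi]
  intro k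
  have h := sqrt_exp_hasDerivAt (mu z k) (xiOf z v k) (arg (z k)) (etaOf z v k) (mu_pos hz k)
  refine h.congr_deriv ?_
  have hpi := Real.pi_pos
  have h1 : mu z k / Real.pi = ‖z k‖ ^ 2 := by unfold mu; field_simp
  rw [h1, Real.sqrt_sq (norm_nonneg _), Complex.norm_mul_exp_arg_mul_I]
  have hn : ‖z k‖ ^ 2 = (z k).re ^ 2 + (z k).im ^ 2 := by
    rw [Complex.sq_norm, Complex.normSq_apply]; ring
  have hn0 : (z k).re ^ 2 + (z k).im ^ 2 ≠ 0 := by
    rw [← hn]; exact (pow_pos (norm_pos_iff.mpr (hz k)) 2).ne'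
  unfold xiOf etaOf mu
  rw [hn]
  apply Complex.ext
  · simp only [mul_re, add_re, ofReal_re, I_re, ofReal_im, I_im, add_im, mul_im]
    field_simp
    ring
  · simp only [mul_re, add_re, ofReal_re, I_re, ofReal_im, I_im, add_im, mul_im]
    field_simp
    ring

lemma torusMap_fderiv (A C : Matrix (Fin n) (Fin n) ℤ) (b : Fin n → ℝ) {z : Fin n → ℂ}
    (hz : ∀ k, z k ≠ 0) (hpos : ∀ j, 0 < affMap A b (mu z) j) (v : Fin n → ℂ) (j : Fin n) :
    fderiv ℝ (torusMap A C b) z v j = torusMap A C b z j *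
      (((∑ k, (A j k : ℝ) * xiOf z v k) / (2 * affMap A b (mu z) j) : ℝ) +
        ((∑ k, (C j k : ℝ) * etaOf z v k : ℝ) : ℂ) * I) := by
  have hd : DifferentiableAt ℝ (torusMap A C b) z :=
    (torusMap_contDiffAt A C b z hz hpos).differentiableAt (by simp)
  have hp := path_hasDerivAt hz v
  have h0 : path (mu z) (fun k => arg (z k)) (xiOf z v) (etaOf z v) 0 = z := path_zero z _ _
  have h1 : HasDerivAt (fun t => torusMap A C b
      (path (mu z) (fun k => arg (z k)) (xiOf z v) (etaOf z v) t))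
      (fderiv ℝ (torusMap A C b) z v) 0 := by
    have h2 : HasFDerivAt (torusMap A C b) (fderiv ℝ (torusMap A C b) z)
      (path (mu z) (fun k => arg (z k)) (xiOf z v) (etaOf z v) 0) := by
      rw [h0]; exact hd.hasFDerivAt
    exact h2.comp_hasDerivAt (0 : ℝ) hp
  have h2 := (hasDerivAt_pi.mp h1) j
  have h3 := sqrt_exp_hasDerivAt (affMap A b (mu z) j) (∑ k, (A j k : ℝ) * xiOf z v k)
    (∑ k, (C j k : ℝ) * arg (z k)) (∑ k, (C j k : ℝ) * etaOf z v k) (hpos j)
  have hev : ∀ᶠ t : ℝ in nhds 0, ∀ k, 0 < mu z k + t * xiOf z v k := by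
    rw [Filter.eventually_all]
    intro k
    have hc : ContinuousAt (fun t : ℝ => mu z k + t * xiOf z v k) 0 := by fun_prop
    have : 0 < mu z k + 0 * xiOf z v k := by simpa using mu_pos hz k
    exact hc.eventually (lt_mem_nhds this)
  have h4 : (fun t => torusMap A C b
      (path (mu z) (fun k => arg (z k)) (xiOf z v) (etaOf z v) t) j) =ᶠ[nhds 0]
      (fun t : ℝ => ((Real.sqrt ((affMap A b (mu z) j + t * ∑ k, (A j k : ℝ) * xiOf z v k) / Real.pi) : ℝ) : ℂ) *
      exp (((∑ k, (C j k : ℝ) * arg (z k) + t * ∑ k, (C j k : ℝ) * etaOf z v k : ℝ) : ℂ) * I)) := by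
    filter_upwards [hev] with t ht
    exact torusMap_path A C b ht j
  have h5 := h2.unique (h3.congr_of_eventuallyEq h4)
  rw [h5]
  congr 1
  have h6 := torusMap_path A C b (x := mu z) (θ := fun k => arg (z k)) (ξ := xiOf z v)
    (η := etaOf z v) (t := 0) (fun k => by simpa using mu_pos hz k) j
  rw [h0] at h6
  simpa using h6.symm

lemma norm_sq_torusMap (A C : Matrix (Fin n) (Fin n) ℤ) (b : Fin n → ℝ) {z : Fin n → ℂ}
    (hz : ∀ k, z k ≠ 0) (hpos : ∀ j, 0 < affMap A b (mu z) j) (j : Fin n) :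
    ‖torusMap A C b z j‖ ^ 2 = affMap A b (mu z) j / Real.pi := by
  have hpi := Real.pi_pos
  unfold torusMap
  rw [norm_mul, Complex.norm_real, Real.norm_of_nonneg (Real.sqrt_nonneg _)]
  have : ‖∏ k, (z k / ((‖z k‖ : ℝ) : ℂ)) ^ (C j k)‖ = 1 := by
    rw [norm_prod]
    apply Finset.prod_eq_one
    intro k _
    rw [norm_zpow, norm_div, Complex.norm_real, Real.norm_of_nonneg (norm_nonneg _),
      div_self (norm_pos_iff.mpr (hz k)).ne', one_zpow]
  rw [this, mul_one, Real.sq_sqrt]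
  exact (div_pos (hpos j) hpi).le

lemma mu_torusMap (A C : Matrix (Fin n) (Fin n) ℤ) (b : Fin n → ℝ) {z : Fin n → ℂ}
    (hz : ∀ k, z k ≠ 0) (hpos : ∀ j, 0 < affMap A b (mu z) j) :
    mu (torusMap A C b z) = affMap A b (mu z) := by
  funext j
  have hpi := Real.pi_pos
  unfold mu
  rw [norm_sq_torusMap A C b hz hpos]
  field_simp
  rfl

end Vale.Agent.P209
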