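import Mathlib
import Vale.Agent.P209.Defs
import Vale.Agent.P209.Torus
import Vale.Agent.P209.Push

/-!
Symplectic embeddings of balls through the torus part of the open ball.
-/

namespace Vale.Agent.P209

open scoped ContDiff
open Complex

variable {n : ℕ}

lemma sum_pair_of_inv (A C : Matrix (Fin n) (Fin n) ℤ) (hAC : C.transpose * A = 1)
    (ξ η : Fin n → ℝ) :
    ∑ j, (∑ k, (A j k : ℝ) * ξ k) * (∑ l, (C j l : ℝ) * η l) = ∑ k, ξ k * η k := by
  have hent : ∀ l k, ∑ j, (C j l : ℝ) * (A j k : ℝ) = if l = k then 1 else 0 := by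
    intro l k
    have h := congrFun (congrFun hAC l) k
    rw [Matrix.mul_apply, Matrix.one_apply] at h
    simp only [Matrix.transpose_apply] at h
    have h' : (((∑ j, C j l * A j k : ℤ)) : ℝ) = ((if l = k then 1 else 0 : ℤ) : ℝ) := by rw [h]
    push_cast at h'
    exact h'
  calc ∑ j, (∑ k, (A j k : ℝ) * ξ k) * (∑ l, (C j l : ℝ) * η l)
      = ∑ j, ∑ k, ∑ l, (ξ k * η l) * ((C j l : ℝ) * (A j k : ℝ)) := by
        apply Finset.sum_congr rfl
        intro j _
        rw [Finset.sum_mul_sum]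
        apply Finset.sum_congr rfl
        intro k _
        apply Finset.sum_congr rfl
        intro l _
        ring
    _ = ∑ k, ∑ l, ∑ j, (ξ k * η l) * ((C j l : ℝ) * (A j k : ℝ)) := by
        rw [Finset.sum_comm]
        apply Finset.sum_congr rfl
        intro k _
        rw [Finset.sum_comm]
    _ = ∑ k, ξ k * η k := by
        apply Finset.sum_congr rfl
        intro k _
        simp only [← Finset.mul_sum, hent]
        simp

lemma om_torus (A C : Matrix (Fin n) (Fin n) ℤ) (b : Fin n → ℝ) {z : Fin n → ℂ}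
    (hz : ∀ k, z k ≠ 0) (hpos : ∀ j, 0 < affMap A b (mu z) j) (v w : Fin n → ℂ) (j : Fin n) :
    om (fderiv ℝ (torusMap A C b) z v j) (fderiv ℝ (torusMap A C b) z w j) =
      (1 / (2 * Real.pi)) *
      ((∑ k, (A j k : ℝ) * xiOf z v k) * (∑ k, (C j k : ℝ) * etaOf z w k) -
       (∑ k, (A j k : ℝ) * xiOf z w k) * (∑ k, (C j k : ℝ) * etaOf z v k)) := by
  rw [torusMap_fderiv A C b hz hpos, torusMap_fderiv A C b hz hpos]
  have hn := norm_sq_torusMap A C b hz hpos j
  rw [Complex.sq_norm, Complex.normSq_apply] at hn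
  have hX := hpos j
  have hpi := Real.pi_pos
  generalize torusMap A C b z j = T at *
  generalize affMap A b (mu z) j = X at *
  generalize (∑ k, (A j k : ℝ) * xiOf z v k) = a at *
  generalize (∑ k, (A j k : ℝ) * xiOf z w k) = a' at *
  generalize (∑ k, (C j k : ℝ) * etaOf z v k) = e at *
  generalize (∑ k, (C j k : ℝ) * etaOf z w k) = e' at *
  have h1 : om (T * (((a / (2 * X) : ℝ) : ℂ) + (e : ℂ) * I)) (T * (((a' / (2 * X) : ℝ) : ℂ) + (e' : ℂ) * I))
      = (T.re * T.re + T.im * T.im) * (a / (2 * X) * e' - e * (a' / (2 * X))) := by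
    simp only [om, mul_re, mul_im, add_re, add_im, ofReal_re, ofReal_im, I_re, I_im]
    ring
  rw [h1, hn]
  field_simp

lemma om_coord {z : Fin n → ℂ} (hz : ∀ k, z k ≠ 0) (v w : Fin n → ℂ) (k : Fin n) :
    (1 / (2 * Real.pi)) * (xiOf z v k * etaOf z w k - xiOf z w k * etaOf z v k) =
      om (v k) (w k) := by
  unfold xiOf etaOf om
  have hn : ‖z k‖ ^ 2 = (z k).re ^ 2 + (z k).im ^ 2 := by
    rw [Complex.sq_norm, Complex.normSq_apply]; ring
  have hn0 : (z k).re ^ 2 + (z k).im ^ 2 ≠ 0 := by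
    rw [← hn]; exact (pow_pos (norm_pos_iff.mpr (hz k)) 2).ne'
  have hpi := Real.pi_pos
  rw [hn]
  field_simp
  ring

lemma torusMap_symplectic (A C : Matrix (Fin n) (Fin n) ℤ) (hAC : C.transpose * A = 1)
    (b : Fin n → ℝ) {z : Fin n → ℂ}
    (hz : ∀ k, z k ≠ 0) (hpos : ∀ j, 0 < affMap A b (mu z) j) (v w : Fin n → ℂ) :
    omega (fderiv ℝ (torusMap A C b) z v) (fderiv ℝ (torusMap A C b) z w) = omega v w := by
  have h1 : omega (fderiv ℝ (torusMap A C b) z v) (fderiv ℝ (torusMap A C b) z w) =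
      ∑ j, om (fderiv ℝ (torusMap A C b) z v j) (fderiv ℝ (torusMap A C b) z w j) := rfl
  have h2 : omega v w = ∑ j, om (v j) (w j) := rfl
  rw [h1, h2]
  simp only [om_torus A C b hz hpos]
  rw [← Finset.mul_sum, Finset.sum_sub_distrib, sum_pair_of_inv A C hAC, sum_pair_of_inv A C hAC,
    ← Finset.sum_sub_distrib, Finset.mul_sum]
  apply Finset.sum_congr rfl
  intro k _
  exact om_coord hz v w k

lemma prod_zpow_sum {ι : Type*} (s : Finset ι) (f : ι → ℤ) {u : ℂ} (hu : u ≠ 0) :
    ∏ j ∈ s, u ^ f j = u ^ (∑ j ∈ s, f j) := by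
  classical
  induction s using Finset.induction_on with
  | empty => simp
  | insert a s ha ih => rw [Finset.prod_insert ha, Finset.sum_insert ha, ih, zpow_add₀ hu]

lemma torusMap_injOn (A C : Matrix (Fin n) (Fin n) ℤ) (hAC : C.transpose * A = 1)
    (b : Fin n → ℝ) :
    Set.InjOn (torusMap A C b) {z | (∀ k, z k ≠ 0) ∧ ∀ j, 0 < affMap A b (mu z) j} := by
  rintro z ⟨hz, hzp⟩ w ⟨hw, hwp⟩ h
  -- moment coordinates agree
  have hmu : affMap A b (mu z) = affMap A b (mu w) := by
    rw [← mu_torusMap A C b hz hzp, ← mu_torusMap A C b hw hwp, h]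
  have hmu' : ∀ k, mu z k = mu w k := by
    have h1 : ∀ j, ∑ k, (A j k : ℝ) * (mu z k - mu w k) = 0 := by
      intro j
      have := congrFun hmu j
      unfold affMap at this
      simp only [mul_sub, Finset.sum_sub_distrib]
      linarith
    intro k
    have h2 := sum_pair_of_inv A C hAC (fun k => mu z k - mu w k) (fun l => if l = k then 1 else 0)
    simp only [h1, zero_mul, Finset.sum_const_zero] at h2
    simp at h2
    linarith
  have hnorm : ∀ k, ‖z k‖ = ‖w k‖ := by
    intro k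
    have h1 := hmu' k
    unfold mu at h1
    have h2 := mul_left_cancel₀ Real.pi_ne_zero h1
    exact (sq_eq_sq₀ (norm_nonneg _) (norm_nonneg _)).mp h2
  -- phases
  set u : Fin n → ℂ := fun k => z k / ((‖z k‖ : ℝ) : ℂ) with hu
  set u' : Fin n → ℂ := fun k => w k / ((‖w k‖ : ℝ) : ℂ) with hu'
  have hu0 : ∀ k, u k ≠ 0 := fun k => div_ne_zero (hz k) (by simpa using hz k)
  have hu0' : ∀ k, u' k ≠ 0 := fun k => div_ne_zero (hw k) (by simpa using hw k)
  have hph : ∀ j, ∏ k, u k ^ (C j k) = ∏ k, u' k ^ (C j k) := by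
    intro j
    have h1 := congrFun h j
    unfold torusMap at h1
    rw [hmu] at h1
    have h2 : ((Real.sqrt (affMap A b (mu w) j / Real.pi) : ℝ) : ℂ) ≠ 0 := by
      have := Real.sqrt_pos.mpr (div_pos (hwp j) Real.pi_pos)
      exact_mod_cast this.ne'
    exact mul_left_cancel₀ h2 h1
  -- A * Cᵀ = 1 as well, in the form needed for zpow
  have hAC' : A.transpose * C = 1 := by
    have := congrArg Matrix.transpose hAC
    simpa [Matrix.transpose_mul] using this
  have hrec : ∀ (u : Fin n → ℂ), (∀ k, u k ≠ 0) → ∀ l,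
      ∏ j, (∏ k, u k ^ (C j k)) ^ (A j l) = u l := by
    intro u hu0 l
    have h1 : ∀ j, (∏ k, u k ^ (C j k)) ^ (A j l) = ∏ k, u k ^ (A j l * C j k) := by
      intro j
      rw [← Finset.prod_zpow]
      apply Finset.prod_congr rfl
      intro k _
      rw [← zpow_mul, mul_comm]
    simp only [h1]
    rw [Finset.prod_comm]
    have h2 : ∀ k, ∏ j, u k ^ (A j l * C j k) = u k ^ (if l = k then (1 : ℤ) else 0) := by
      intro k
      have h3 := congrFun (congrFun hAC' l) k
      rw [Matrix.mul_apply, Matrix.one_apply] at h3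
      simp only [Matrix.transpose_apply] at h3
      rw [← h3, prod_zpow_sum _ _ (hu0 k)]
    simp only [h2]
    rw [Finset.prod_eq_single l]
    · simp
    · intro k _ hk
      rw [if_neg (Ne.symm hk), zpow_zero]
    · intro hl
      exact absurd (Finset.mem_univ l) hl
  funext l
  have e1 := hrec u hu0 l
  have e2 := hrec u' hu0' l
  simp only [hph] at e1
  have e3 : u l = u' l := e1.symm.trans e2
  rw [hu, hu'] at e3
  simp only at e3
  rw [hnorm l] at e3
  have hwl : ((‖w l‖ : ℝ) : ℂ) ≠ 0 := by simpa using hw l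
  exact (div_left_inj' hwl).mp e3

/-- The open standard simplex of size `ρ`. -/
def simplex (n : ℕ) (ρ : ℝ) : Set (Fin n → ℝ) := {x | (∀ j, 0 < x j) ∧ ∑ j, x j < ρ}

/-- A smooth map of an open set that preserves the symplectic form and is injective is a
topological embedding. -/
lemma isEmbedding_of_symplectic {f : (Fin n → ℂ) → (Fin n → ℂ)} {U : Set (Fin n → ℂ)}
    (hU : IsOpen U) (hf : ContDiffOn ℝ ∞ f U) (hinj : Set.InjOn f U)
    (hs : ∀ z ∈ U, ∀ v w : Fin n → ℂ, omega (fderiv ℝ f z v) (fderiv ℝ f z w) = omega v w) :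
    Topology.IsEmbedding (fun z : U => f z) := by
  have hopen : IsOpenMap (fun z : U => f z) := by
    have h1 : ∀ z ∈ U, Filter.map f (nhds z) = nhds (f z) := by
      intro z hz
      have hc : ContDiffAt ℝ ∞ f z := hf.contDiffAt (hU.mem_nhds hz)
      have hstrict : HasStrictFDerivAt f (fderiv ℝ f z) z := hc.hasStrictFDerivAt (by simp)
      have hinj' : Function.Injective (fderiv ℝ f z) := by
        rw [injective_iff_map_eq_zero]
        intro v hv
        have h2 : ∀ w, omega v w = 0 := by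
          intro w
          rw [← hs z hz v w, hv]
          simp [omega]
        funext j
        have h3 := h2 (Pi.single j (I * v j))
        have h4 : omega v (Pi.single j (I * v j)) = (v j).re ^ 2 + (v j).im ^ 2 := by
          unfold omega
          rw [Finset.sum_eq_single j]
          · simp; ring
          · intro k _ hk
            simp [Pi.single_eq_of_ne hk]
          · intro h; exact absurd (Finset.mem_univ j) h
        rw [h4] at h3
        have h5 : (v j).re = 0 := by nlinarith [sq_nonneg (v j).re, sq_nonneg (v j).im]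
        have h6 : (v j).im = 0 := by nlinarith [sq_nonneg (v j).re, sq_nonneg (v j).im]
        exact Complex.ext h5 h6
      have hsurj : Function.Surjective (fderiv ℝ f z) :=
        LinearMap.surjective_of_injective (f := (fderiv ℝ f z : (Fin n → ℂ) →ₗ[ℝ] (Fin n → ℂ))) hinj'
      exact hstrict.map_nhds_eq_of_surj (LinearMap.range_eq_top.mpr hsurj)
    rw [isOpenMap_iff_nhds_le]
    rintro ⟨z, hz⟩
    have h2 : Filter.map (fun z : U => f z) (nhds ⟨z, hz⟩) = nhds (f z) := by
      have : (fun z : U => f z) = f ∘ (Subtype.val : U → _) := rfl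
      rw [this, ← Filter.map_map, map_nhds_subtype_coe_eq_nhds hz (hU.mem_nhds hz), h1 z hz]
    exact h2.ge
  have hcont : Continuous (fun z : U => f z) := by
    have := hf.continuousOn
    exact continuousOn_iff_continuous_domRestrict.mp this
  have hinj2 : Function.Injective (fun z : U => f z) := by
    intro a b h
    exact Subtype.ext (hinj a.2 b.2 h)
  exact (Topology.IsOpenEmbedding.of_continuous_injective_isOpenMap hcont hinj2 hopen).isEmbedding

/-- The product of `n` copies of a planar map. -/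
def prodMap (n : ℕ) (σ : ℂ → ℂ) (z : Fin n → ℂ) (j : Fin n) : ℂ := σ (z j)

lemma prodMap_smooth {σ : ℂ → ℂ} (hσ : AreaMap σ) : ContDiff ℝ ∞ (prodMap n σ) := by
  rw [contDiff_pi]
  intro j
  exact hσ.smooth.comp (contDiff_apply ℝ ℂ j)

lemma prodMap_inj {σ : ℂ → ℂ} (hσ : AreaMap σ) : Function.Injective (prodMap n σ) := by
  intro z w h
  funext j
  exact hσ.inj (congrFun h j)

lemma prodMap_fderiv {σ : ℂ → ℂ} (hσ : AreaMap σ) (z v : Fin n → ℂ) (j : Fin n) :
    fderiv ℝ (prodMap n σ) z v j = fderiv ℝ σ (z j) (v j) := by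
  have h1 : HasFDerivAt (prodMap n σ) (fderiv ℝ (prodMap n σ) z) z :=
    ((prodMap_smooth hσ).differentiable (by simp) z).hasFDerivAt
  have h2 := (hasFDerivAt_pi'.mp h1) j
  have h3 : HasFDerivAt (fun z : Fin n → ℂ => z j)
      (ContinuousLinearMap.proj (R := ℝ) (φ := fun _ : Fin n => ℂ) j) z :=
    (ContinuousLinearMap.proj (R := ℝ) (φ := fun _ : Fin n => ℂ) j).hasFDerivAt
  have h4 : HasFDerivAt (fun z : Fin n → ℂ => σ (z j))
      ((fderiv ℝ σ (z j)).comp (ContinuousLinearMap.proj (R := ℝ) (φ := fun _ : Fin n => ℂ) j)) z := by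
    have h5 : HasFDerivAt σ (fderiv ℝ σ (z j)) (z j) :=
      (hσ.smooth.differentiable (by simp) (z j)).hasFDerivAt
    exact HasFDerivAt.comp z h5 h3
  have h5 := h2.unique h4
  have h6 := congrArg (fun L : (Fin n → ℂ) →L[ℝ] ℂ => L v) h5
  simpa using h6

lemma prodMap_symplectic {σ : ℂ → ℂ} (hσ : AreaMap σ) (z v w : Fin n → ℂ) :
    omega (fderiv ℝ (prodMap n σ) z v) (fderiv ℝ (prodMap n σ) z w) = omega v w := by
  have h1 : omega (fderiv ℝ (prodMap n σ) z v) (fderiv ℝ (prodMap n σ) z w) =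
      ∑ j, om (fderiv ℝ (prodMap n σ) z v j) (fderiv ℝ (prodMap n σ) z w j) := rfl
  have h2 : omega v w = ∑ j, om (v j) (w j) := rfl
  rw [h1, h2]
  apply Finset.sum_congr rfl
  intro j _
  rw [prodMap_fderiv hσ, prodMap_fderiv hσ, hσ.area]

/-- The main embedding: if an integral affine map carries the open simplex of size `ρ` into the
open simplex of size `R`, then every closed ball of capacity `r < ρ` has a symplectic embedding
whose moment image lies in the image of the simplex of size `ρ`. -/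
theorem exists_ball_embedding (A C : Matrix (Fin n) (Fin n) ℤ) (hAC : C.transpose * A = 1)
    (b : Fin n → ℝ) {r ρ R : ℝ} (hr : 0 ≤ r) (hρ : r < ρ)
    (h : ∀ x ∈ simplex n ρ, affMap A b x ∈ simplex n R) :
    ∃ f : (Fin n → ℂ) → (Fin n → ℂ), IsSymplecticEmbedding (closedBallCap n r) f ∧
      ∀ z ∈ closedBallCap n r, ∃ x ∈ simplex n ρ, mu (f z) = affMap A b x := by
  have hpi := Real.pi_pos
  set q : ℝ := Real.sqrt (r / Real.pi) with hq
  have hq0 : 0 ≤ q := Real.sqrt_nonneg _
  have hqsq : q ^ 2 = r / Real.pi := Real.sq_sqrt (by positivity)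
  -- choose ε
  obtain ⟨ε, hε, hεs⟩ : ∃ ε : ℝ, 0 < ε ∧ r + Real.pi * (2 * ε * n * q + n * ε ^ 2) < ρ := by
    have hc : Continuous (fun ε : ℝ => r + Real.pi * (2 * ε * n * q + n * ε ^ 2)) := by fun_prop
    have h0 : (fun ε : ℝ => r + Real.pi * (2 * ε * n * q + n * ε ^ 2)) 0 < ρ := by simpa using hρ
    have hev := hc.continuousAt.eventually (gt_mem_nhds h0)
    obtain ⟨δ, hδ, hb⟩ := Metric.eventually_nhds_iff.mp hev
    refine ⟨δ / 2, by positivity, hb ?_⟩
    rw [Real.dist_eq, sub_zero, abs_of_pos (by positivity)]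
    linarith
  obtain ⟨σ, hσ, hσ0, hσn⟩ := exists_areaMap_avoid_zero (q + 1) ε (by positivity) hε
  set U : Set (Fin n → ℂ) := {z | Real.pi * ∑ j, (‖z j‖ + ε) ^ 2 < ρ ∧ ∀ j, ‖z j‖ < q + 1} with hU
  have hUopen : IsOpen U := by
    have e1 : IsOpen {z : Fin n → ℂ | Real.pi * ∑ j, (‖z j‖ + ε) ^ 2 < ρ} := by
      have hc : Continuous (fun z : Fin n → ℂ => Real.pi * ∑ j, (‖z j‖ + ε) ^ 2) := by fun_prop
      exact isOpen_lt hc continuous_const
    have e2 : IsOpen {z : Fin n → ℂ | ∀ j, ‖z j‖ < q + 1} := by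
      have : {z : Fin n → ℂ | ∀ j, ‖z j‖ < q + 1} = ⋂ j, {z : Fin n → ℂ | ‖z j‖ < q + 1} := by
        ext z; simp
      rw [this]
      apply isOpen_iInter_of_finite
      intro j
      have hc : Continuous (fun z : Fin n → ℂ => ‖z j‖) := by fun_prop
      exact isOpen_lt hc continuous_const
    exact e1.inter e2
  have hK : closedBallCap n r ⊆ U := by
    intro z hz
    have hz' : Real.pi * ∑ j, ‖z j‖ ^ 2 ≤ r := hz
    have hzs : ∑ j, ‖z j‖ ^ 2 ≤ r / Real.pi := by
      rw [le_div_iff₀ hpi]; linarith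
    have hzj : ∀ j, ‖z j‖ ≤ q := by
      intro j
      have h1 : ‖z j‖ ^ 2 ≤ q ^ 2 := by
        rw [hqsq]
        exact le_trans (Finset.single_le_sum (f := fun j => ‖z j‖ ^ 2)
          (fun i _ => by positivity) (Finset.mem_univ j)) hzs
      exact (sq_le_sq₀ (norm_nonneg _) hq0).mp h1
    refine ⟨?_, fun j => lt_of_le_of_lt (hzj j) (by linarith)⟩
    have h2 : ∑ j, (‖z j‖ + ε) ^ 2 ≤ r / Real.pi + (2 * ε * n * q + n * ε ^ 2) := by
      have h3 : ∑ j, (‖z j‖ + ε) ^ 2 ≤ ∑ j, (‖z j‖ ^ 2 + (2 * ε * q + ε ^ 2)) := by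
        apply Finset.sum_le_sum
        intro j _
        have := hzj j
        nlinarith
      rw [Finset.sum_add_distrib] at h3
      simp only [Finset.sum_const, Finset.card_univ, Fintype.card_fin, nsmul_eq_mul] at h3
      linarith
    calc Real.pi * ∑ j, (‖z j‖ + ε) ^ 2
        ≤ Real.pi * (r / Real.pi + (2 * ε * n * q + n * ε ^ 2)) :=
          mul_le_mul_of_nonneg_left h2 hpi.le
      _ = r + Real.pi * (2 * ε * n * q + n * ε ^ 2) := by field_simp
      _ < ρ := hεs
  -- facts on U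
  have hU0 : ∀ z ∈ U, ∀ k, prodMap n σ z k ≠ 0 := fun z hz k => hσ0 (z k) (hz.2 k).le
  have hUs : ∀ z ∈ U, mu (prodMap n σ z) ∈ simplex n ρ := by
    intro z hz
    refine ⟨fun j => mu_pos (hU0 z hz) j, ?_⟩
    refine lt_of_le_of_lt ?_ hz.1
    rw [Finset.mul_sum]
    apply Finset.sum_le_sum
    intro j _
    unfold mu
    apply mul_le_mul_of_nonneg_left _ hpi.le
    exact pow_le_pow_left₀ (norm_nonneg _) (hσn (z j)) 2
  have hUa : ∀ z ∈ U, ∀ j, 0 < affMap A b (mu (prodMap n σ z)) j := fun z hz =>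
    (h _ (hUs z hz)).1
  have hsm : ContDiffOn ℝ ∞ (fun z => torusMap A C b (prodMap n σ z)) U := by
    intro z hz
    exact ((torusMap_contDiffAt A C b _ (hU0 z hz) (hUa z hz)).comp z
      (prodMap_smooth hσ).contDiffAt).contDiffWithinAt
  have hinj : Set.InjOn (fun z => torusMap A C b (prodMap n σ z)) U := by
    intro z hz w hw hzw
    exact prodMap_inj hσ (torusMap_injOn A C hAC b ⟨hU0 z hz, hUa z hz⟩ ⟨hU0 w hw, hUa w hw⟩ hzw)
  have hsy : ∀ z ∈ U, ∀ v w : Fin n → ℂ,
      omega (fderiv ℝ (fun z => torusMap A C b (prodMap n σ z)) z v)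
        (fderiv ℝ (fun z => torusMap A C b (prodMap n σ z)) z w) = omega v w := by
    intro z hz v w
    have h1 : DifferentiableAt ℝ (torusMap A C b) (prodMap n σ z) :=
      (torusMap_contDiffAt A C b _ (hU0 z hz) (hUa z hz)).differentiableAt (by simp)
    have h2 : DifferentiableAt ℝ (prodMap n σ) z := (prodMap_smooth hσ).differentiable (by simp) z
    have h3 : fderiv ℝ (fun z => torusMap A C b (prodMap n σ z)) z =
      (fderiv ℝ (torusMap A C b) (prodMap n σ z)).comp (fderiv ℝ (prodMap n σ) z) :=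
      fderiv_comp z h1 h2
    rw [h3]
    simp only [ContinuousLinearMap.comp_apply]
    rw [torusMap_symplectic A C hAC b (hU0 z hz) (hUa z hz), prodMap_symplectic hσ]
  refine ⟨fun z => torusMap A C b (prodMap n σ z), ⟨U, hUopen, hK, hsm,
    isEmbedding_of_symplectic hUopen hsm hinj hsy, hsy⟩, ?_⟩
  intro z hz
  refine ⟨mu (prodMap n σ z), hUs z (hK hz), ?_⟩
  exact mu_torusMap A C b (hU0 z (hK hz)) (hUa z (hK hz))

end Vale.Agent.P209
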