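import Mathlib
import Vale.Agent.P209.Embed

/-!
Order simplices and the passage from permutations plus translations to symplectic embeddings.
-/

namespace Vale.Agent.P209

open scoped ContDiff

variable {n : ℕ}

/-- The open order simplex of size `ρ`. -/
def ordS (n : ℕ) (ρ : ℝ) : Set (Fin n → ℝ) := {y | StrictMono y ∧ (∀ j, 0 < y j) ∧ ∀ j, y j < ρ}

/-- Partial sums. -/
def cum (x : Fin n → ℝ) (j : Fin n) : ℝ := ∑ k ∈ Finset.Iic j, x k

/-- The matrix of the partial sum map. -/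
def Lmat (n : ℕ) : Matrix (Fin n) (Fin n) ℤ := fun j k => if k ≤ j then 1 else 0

/-- The matrix of a permutation of the coordinates. -/
def Smat (s : Equiv.Perm (Fin n)) : Matrix (Fin n) (Fin n) ℤ := fun j k => if k = s j then 1 else 0

lemma Lmat_det : (Lmat n).det = 1 := by
  rw [Matrix.det_of_isLowerTriangular]
  · simp [Lmat]
  · intro i j hij
    have h : i < j := hij
    simp [Lmat, not_le.mpr h]

lemma Lmat_inv_mul : (Lmat n)⁻¹ * Lmat n = 1 := by
  apply Matrix.nonsing_inv_mul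
  rw [Lmat_det]; exact isUnit_one

lemma Lmat_mul_inv : Lmat n * (Lmat n)⁻¹ = 1 := by
  apply Matrix.mul_nonsing_inv
  rw [Lmat_det]; exact isUnit_one

lemma Smat_mul (s t : Equiv.Perm (Fin n)) : Smat s * Smat t = Smat (t * s) := by
  ext i j
  rw [Matrix.mul_apply]
  simp only [Smat]
  rw [Finset.sum_eq_single (s i)]
  · rw [if_pos rfl, one_mul]
    rfl
  · intro k _ hk
    simp [hk]
  · intro h; exact absurd (Finset.mem_univ _) h

lemma Smat_one : Smat (1 : Equiv.Perm (Fin n)) = 1 := by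
  ext i j
  simp [Smat, Matrix.one_apply, eq_comm]

/-- real version of an integral matrix acting on vectors -/
lemma affMap_eq (A : Matrix (Fin n) (Fin n) ℤ) (b x : Fin n → ℝ) :
    affMap A b x = (A.map (Int.cast : ℤ → ℝ)).mulVec x + b := by
  funext j
  simp [affMap, Matrix.mulVec, dotProduct]

lemma cum_eq (x : Fin n → ℝ) : cum x = ((Lmat n).map (Int.cast : ℤ → ℝ)).mulVec x := by
  funext j
  simp only [cum, Matrix.mulVec, dotProduct, Lmat, Matrix.map_apply]
  rw [← Finset.sum_filter_add_sum_filter_not Finset.univ (fun k => k ≤ j)]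
  have h1 : ∑ k with ¬ k ≤ j, (((if k ≤ j then 1 else 0 : ℤ)) : ℝ) * x k = 0 := by
    apply Finset.sum_eq_zero
    intro k hk
    rw [Finset.mem_filter] at hk
    simp [hk.2]
  rw [h1, add_zero]
  have h2 : Finset.univ.filter (fun k : Fin n => k ≤ j) = Finset.Iic j := by
    ext k; simp
  rw [h2]
  apply Finset.sum_congr rfl
  intro k hk
  simp [Finset.mem_Iic.mp hk]

lemma Smat_mulVec (s : Equiv.Perm (Fin n)) (y : Fin n → ℝ) :
    ((Smat s).map (Int.cast : ℤ → ℝ)).mulVec y = fun j => y (s j) := by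
  funext j
  simp [Matrix.mulVec, dotProduct, Smat]

lemma map_mul' (A B : Matrix (Fin n) (Fin n) ℤ) :
    (A * B).map (Int.cast : ℤ → ℝ) = A.map Int.cast * B.map Int.cast := by
  have := Matrix.map_mul (f := Int.castRingHom ℝ) (L := A) (M := B)
  exact this

lemma cum_affMap (s : Equiv.Perm (Fin n)) (o x : Fin n → ℝ) :
    cum (affMap ((Lmat n)⁻¹ * Smat s * Lmat n)
      ((((Lmat n)⁻¹).map (Int.cast : ℤ → ℝ)).mulVec o) x) = fun j => cum x (s j) + o j := by
  have h1 : (Lmat n).map (Int.cast : ℤ → ℝ) * ((Lmat n)⁻¹).map (Int.cast : ℤ → ℝ) = 1 := by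
    rw [← map_mul', Lmat_mul_inv]
    ext i j
    by_cases h : i = j
    · subst h; simp
    · simp [h]
  rw [cum_eq, affMap_eq, Matrix.mulVec_add, map_mul', map_mul', Matrix.mulVec_mulVec,
    Matrix.mulVec_mulVec, ← Matrix.mul_assoc, ← Matrix.mul_assoc, h1, Matrix.one_mul,
    Matrix.one_mulVec, ← Matrix.mulVec_mulVec, ← cum_eq, Smat_mulVec]
  rfl

lemma cum_mem_ordS {x : Fin n → ℝ} {ρ : ℝ} (h : x ∈ simplex n ρ) : cum x ∈ ordS n ρ := by
  obtain ⟨h1, h2⟩ := h
  refine ⟨?_, ?_, ?_⟩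
  · intro i j hij
    unfold cum
    apply Finset.sum_lt_sum_of_subset (i := j)
    · exact Finset.Iic_subset_Iic.mpr hij.le
    · simp
    · simpa using hij
    · exact h1 j
    · intro k _ _
      exact (h1 k).le
  · intro j
    unfold cum
    exact Finset.sum_pos (fun k _ => h1 k) ⟨j, by simp⟩
  · intro j
    refine lt_of_le_of_lt ?_ h2
    unfold cum
    exact Finset.sum_le_sum_of_subset_of_nonneg (Finset.subset_univ _) (fun k _ _ => (h1 k).le)

lemma mem_simplex_of_cum (hn : 0 < n) {x : Fin n → ℝ} {ρ : ℝ} (h : cum x ∈ ordS n ρ) :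
    x ∈ simplex n ρ := by
  obtain ⟨hmono, hpos, hlt⟩ := h
  have hins : ∀ j : Fin n, cum x j = x j + ∑ k ∈ Finset.Iio j, x k := by
    intro j
    unfold cum
    rw [← Finset.Iio_insert, Finset.sum_insert (by simp)]
  refine ⟨?_, ?_⟩
  · intro j
    by_cases hj : (j : ℕ) = 0
    · have h1 : Finset.Iio j = ∅ := by
        ext k
        simp only [Finset.mem_Iio, Finset.notMem_empty, iff_false, not_lt, Fin.le_def]
        omega
      have h2 := hins j
      rw [h1, Finset.sum_empty, add_zero] at h2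
      rw [← h2]
      exact hpos j
    · set i : Fin n := ⟨(j : ℕ) - 1, by omega⟩ with hi
      have hij : i < j := by
        rw [Fin.lt_def, hi]; simp; omega
      have h1 : Finset.Iio j = Finset.Iic i := by
        ext k
        simp only [Finset.mem_Iio, Finset.mem_Iic, Fin.lt_def, Fin.le_def, hi]
        omega
      have h2 := hins j
      rw [h1] at h2
      have h3 : cum x i = ∑ k ∈ Finset.Iic i, x k := rfl
      have h4 := hmono hij
      linarith
  · have hl := hlt ⟨n - 1, by omega⟩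
    have h1 : (Finset.Iic (⟨n - 1, by omega⟩ : Fin n)) = Finset.univ := by
      ext k
      simp only [Finset.mem_Iic, Finset.mem_univ, iff_true, Fin.le_def]
      omega
    unfold cum at hl
    rw [h1] at hl
    exact hl

/-- A permutation plus a translation that carries the order simplex of size `ρ` into the one of
size `R` gives a symplectic embedding of every closed ball of capacity `r < ρ`. -/
theorem exists_slot_embedding (hn : 0 < n) (s : Equiv.Perm (Fin n)) (o : Fin n → ℝ) {r ρ R : ℝ}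
    (hr : 0 ≤ r) (hρ : r < ρ)
    (h : ∀ y ∈ ordS n ρ, (fun j => y (s j) + o j) ∈ ordS n R) :
    ∃ f : (Fin n → ℂ) → (Fin n → ℂ), IsSymplecticEmbedding (closedBallCap n r) f ∧
      f '' closedBallCap n r ⊆ openBallCap n R ∧
      ∀ z ∈ closedBallCap n r, ∃ y ∈ ordS n ρ, cum (mu (f z)) = fun j => y (s j) + o j := by
  set A : Matrix (Fin n) (Fin n) ℤ := (Lmat n)⁻¹ * Smat s * Lmat n with hA
  set B : Matrix (Fin n) (Fin n) ℤ := (Lmat n)⁻¹ * Smat s⁻¹ * Lmat n with hB
  set b : Fin n → ℝ := (((Lmat n)⁻¹).map (Int.cast : ℤ → ℝ)).mulVec o with hb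
  have hBA : B * A = 1 := by
    have e : B * A = (Lmat n)⁻¹ * (Smat s⁻¹ * (Lmat n * (Lmat n)⁻¹) * Smat s) * Lmat n := by
      rw [hA, hB]; simp only [Matrix.mul_assoc]
    rw [e, Lmat_mul_inv, Matrix.mul_one, Smat_mul]
    simp only [mul_inv_cancel, Smat_one, Matrix.mul_one, Lmat_inv_mul]
  have hmap : ∀ x ∈ simplex n ρ, affMap A b x ∈ simplex n R := by
    intro x hx
    apply mem_simplex_of_cum hn
    rw [hA, hb, cum_affMap]
    exact h _ (cum_mem_ordS hx)
  obtain ⟨f, hf, hfx⟩ := exists_ball_embedding A B.transpose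
    (by rw [Matrix.transpose_transpose]; exact hBA) b hr hρ hmap
  refine ⟨f, hf, ?_, ?_⟩
  · rintro _ ⟨z, hz, rfl⟩
    obtain ⟨x, hx, hmu⟩ := hfx z hz
    have h1 := (hmap x hx).2
    rw [← hmu] at h1
    change Real.pi * ∑ j, ‖f z j‖ ^ 2 < R
    rw [Finset.mul_sum]
    exact h1
  · intro z hz
    obtain ⟨x, hx, hmu⟩ := hfx z hz
    refine ⟨cum x, cum_mem_ordS hx, ?_⟩
    rw [hmu, hA, hb, cum_affMap]

/-- A packing of a region in order coordinates by order simplices moved by permutations and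
translations. -/
def OPack (n : ℕ) {ι : Type} (ρ : ι → ℝ) (X : Set (Fin n → ℝ)) : Prop :=
  ∃ (s : ι → Equiv.Perm (Fin n)) (o : ι → Fin n → ℝ),
    (∀ i, ∀ y ∈ ordS n (ρ i), (fun j => y (s i j) + o i j) ∈ X) ∧
    ∀ i i', i ≠ i' → ∀ y ∈ ordS n (ρ i), ∀ y' ∈ ordS n (ρ i'),
      (fun j => y (s i j) + o i j) ≠ (fun j => y' (s i' j) + o i' j)

theorem ballPacking_of_oPack (hn : 0 < n) {ι : Type} {ρ r : ι → ℝ} {R : ℝ}
    (h : OPack n ρ (ordS n R)) (hr : ∀ i, 0 ≤ r i) (hρ : ∀ i, r i < ρ i) :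
    BallPacking n r R := by
  obtain ⟨s, o, h1, h2⟩ := h
  choose f hf himg hloc using fun i => exists_slot_embedding hn (s i) (o i) (hr i) (hρ i) (h1 i)
  refine ⟨f, hf, himg, ?_⟩
  intro i i' hii'
  rw [Set.disjoint_left]
  rintro _ ⟨z, hz, rfl⟩ ⟨z', hz', hzz⟩
  obtain ⟨y, hy, e⟩ := hloc i z hz
  obtain ⟨y', hy', e'⟩ := hloc i' z' hz'
  rw [hzz] at e'
  exact h2 i i' hii' y hy y' hy' (e.symm.trans e')

end Vale.Agent.P209
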