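import Mathlib
import Vale.Agent.P209.Order

/-!
Packings of order simplices: general tools and the alcoves of a system of disjoint cells.
-/

namespace Vale.Agent.P209

variable {n : ℕ}

lemma ordS_mono {ρ ρ' : ℝ} (h : ρ ≤ ρ') : ordS n ρ ⊆ ordS n ρ' := by
  intro y hy
  exact ⟨hy.1, hy.2.1, fun j => lt_of_lt_of_le (hy.2.2 j) h⟩

lemma OPack.reindex {ι κ : Type} {ρ : ι → ℝ} {X : Set (Fin n → ℝ)} (h : OPack n ρ X)
    (e : κ → ι) (he : Function.Injective e) : OPack n (fun k => ρ (e k)) X := by
  obtain ⟨s, o, h1, h2⟩ := h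
  exact ⟨fun k => s (e k), fun k => o (e k), fun k => h1 (e k),
    fun i i' hii' => h2 (e i) (e i') (fun h => hii' (he h))⟩

lemma OPack.mono {ι : Type} {ρ ρ' : ι → ℝ} {X Y : Set (Fin n → ℝ)} (h : OPack n ρ X)
    (hρ : ∀ i, ρ' i ≤ ρ i) (hX : X ⊆ Y) : OPack n ρ' Y := by
  obtain ⟨s, o, h1, h2⟩ := h
  exact ⟨s, o, fun i y hy => hX (h1 i y (ordS_mono (hρ i) hy)),
    fun i i' hii' y hy y' hy' => h2 i i' hii' y (ordS_mono (hρ i) hy) y' (ordS_mono (hρ i') hy')⟩

lemma OPack.sigma {ι : Type} {κ : ι → Type} {ρ : ι → ℝ} {τ : (i : ι) → κ i → ℝ}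
    {X : Set (Fin n → ℝ)} (h : OPack n ρ X) (hτ : ∀ i, OPack n (τ i) (ordS n (ρ i))) :
    OPack n (fun p : (i : ι) × κ i => τ p.1 p.2) X := by
  obtain ⟨s, o, h1, h2⟩ := h
  choose s' o' h1' h2' using hτ
  refine ⟨fun p => (s' p.1 p.2) * (s p.1) , fun p j => o' p.1 p.2 (s p.1 j) + o p.1 j, ?_, ?_⟩
  · rintro ⟨i, k⟩ y hy
    have h3 := h1 i _ (h1' i k y hy)
    simp only [Equiv.Perm.mul_apply]
    convert h3 using 2
    ring
  · rintro ⟨i, k⟩ ⟨i', k'⟩ hne y hy y' hy' heq
    have e1 : (fun j => y ((s' i k * s i) j) + (o' i k (s i j) + o i j)) =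
        (fun j => (fun l => y (s' i k l) + o' i k l) (s i j) + o i j) := by
      funext j; simp only [Equiv.Perm.mul_apply]; ring
    have e2 : (fun j => y' ((s' i' k' * s i') j) + (o' i' k' (s i' j) + o i' j)) =
        (fun j => (fun l => y' (s' i' k' l) + o' i' k' l) (s i' j) + o i' j) := by
      funext j; simp only [Equiv.Perm.mul_apply]; ring
    simp only at heq
    rw [e1, e2] at heq
    by_cases hii : i = i'
    · subst hii
      have hkk : k ≠ k' := by
        intro h; exact hne (by rw [h])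
      apply h2' i k k' hkk y hy y' hy'
      funext l
      have h4 := congrFun heq ((s i).symm l)
      simpa using h4
    · exact h2 i i' hii _ (h1' i k y hy) _ (h1' i' k' y' hy') heq

lemma OPack.sum {ι κ : Type} {ρ : ι → ℝ} {τ : κ → ℝ} {X Y Z : Set (Fin n → ℝ)}
    (h : OPack n ρ X) (h' : OPack n τ Y) (hXY : Disjoint X Y) (hX : X ⊆ Z) (hY : Y ⊆ Z) :
    OPack n (Sum.elim ρ τ) Z := by
  obtain ⟨s, o, h1, h2⟩ := h
  obtain ⟨s', o', h1', h2'⟩ := h'
  refine ⟨Sum.elim s s', Sum.elim o o', ?_, ?_⟩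
  · rintro (i | k) y hy
    · exact hX (h1 i y hy)
    · exact hY (h1' k y hy)
  · rintro (i | k) (i' | k') hne y hy y' hy'
    · exact h2 i i' (fun h => hne (by rw [h])) y hy y' hy'
    · intro heq
      have a := h1 i y hy
      have b := h1' k' y' hy'
      simp only [Sum.elim_inl, Sum.elim_inr] at heq
      rw [heq] at a
      exact Set.disjoint_left.mp hXY a b
    · intro heq
      have a := h1' k y hy
      have b := h1 i' y' hy'
      simp only [Sum.elim_inl, Sum.elim_inr] at heq
      rw [heq] at a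
      exact Set.disjoint_left.mp hXY b a
    · exact h2' k k' (fun h => hne (by rw [h])) y hy y' hy'

/-- The trivial packing by one simplex. -/
lemma OPack.single {ι : Type} [Subsingleton ι] (ρ : ι → ℝ) {R : ℝ} (h : ∀ i, ρ i ≤ R) :
    OPack n ρ (ordS n R) := by
  refine ⟨fun _ => 1, fun _ _ => 0, ?_, ?_⟩
  · intro i y hy
    simpa using ordS_mono (h i) hy
  · intro i i' hne
    exact absurd (Subsingleton.elim i i') hne

section cells

variable {V : Type} (a : V → ℝ) (c : Fin n → V)

/-- The permutation that sorts the points of an alcove. -/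
noncomputable def cellPerm : Equiv.Perm (Fin n) :=
  Tuple.sort (fun t => toLex (a (c t), t))

lemma cellPerm_strictMono : StrictMono ((fun t => toLex (a (c t), t)) ∘ cellPerm a c) := by
  apply (Tuple.monotone_sort (fun t => toLex (a (c t), t))).strictMono_of_injective
  apply Function.Injective.comp _ (Equiv.injective _)
  intro t t' h
  have := congrArg (fun p => (ofLex p).2) h
  simpa using this

/-- The alcove point. -/
noncomputable def cellPt (y : Fin n → ℝ) (j : Fin n) : ℝ :=
  y (cellPerm a c j) + a (c (cellPerm a c j))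

variable {a c} {h : ℝ}

/-- Cells with left end points `a v` and length `h` are pairwise disjoint. -/
def CellDisj (a : V → ℝ) (h : ℝ) : Prop := ∀ v v', v ≠ v' → a v + h ≤ a v' ∨ a v' + h ≤ a v

lemma cellPt_strictMono (hd : CellDisj a h) {y : Fin n → ℝ} (hy : y ∈ ordS n h) :
    StrictMono (cellPt a c y) := by
  intro i j hij
  have h1 := cellPerm_strictMono a c hij
  simp only [Function.comp] at h1
  rw [Prod.Lex.toLex_lt_toLex] at h1
  unfold cellPt
  set si := cellPerm a c i
  set sj := cellPerm a c j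
  rcases h1 with h1 | ⟨h1, h2⟩
  · simp only at h1
    have hne : c si ≠ c sj := by
      intro he; rw [he] at h1; exact lt_irrefl _ h1
    have hlo := hy.2.1 sj
    have hhi := hy.2.2 si
    rcases hd _ _ hne with h3 | h3
    · linarith
    · have := hy.2.1 si
      linarith
  · simp only at h1 h2
    have := hy.1 h2
    linarith

lemma cellPt_mem (hd : CellDisj a h) (h0 : ∀ t, 0 ≤ a (c t)) {R : ℝ} (hR : ∀ t, a (c t) + h ≤ R)
    {y : Fin n → ℝ} (hy : y ∈ ordS n h) : cellPt a c y ∈ ordS n R := by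
  refine ⟨cellPt_strictMono hd hy, ?_, ?_⟩
  · intro j
    have := hy.2.1 (cellPerm a c j)
    have := h0 (cellPerm a c j)
    unfold cellPt
    linarith
  · intro j
    have := hy.2.2 (cellPerm a c j)
    have := hR (cellPerm a c j)
    unfold cellPt
    linarith

lemma cellPt_exists (y : Fin n → ℝ) (t : Fin n) : ∃ j, cellPt a c y j = y t + a (c t) := by
  refine ⟨(cellPerm a c).symm t, ?_⟩
  simp [cellPt]

lemma cellPt_disj (hd : CellDisj a h) {c c' : Fin n → V} (hc : c ≠ c') {y y' : Fin n → ℝ}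
    (hy : y ∈ ordS n h) (hy' : y' ∈ ordS n h) : cellPt a c y ≠ cellPt a c' y' := by
  intro heq
  apply hc
  -- the comparison permutation
  set τ : Equiv.Perm (Fin n) := (cellPerm a c').symm.symm * (cellPerm a c).symm with hτ
  have hval : ∀ t, y t + a (c t) = y' (τ t) + a (c' (τ t)) := by
    intro t
    have h1 := congrFun heq ((cellPerm a c).symm t)
    unfold cellPt at h1
    simpa [hτ, Equiv.Perm.mul_apply] using h1
  have hcell : ∀ t, c t = c' (τ t) := by
    intro t
    by_contra hne
    have h1 := hval t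
    have := hy.2.1 t
    have := hy.2.2 t
    have := hy'.2.1 (τ t)
    have := hy'.2.2 (τ t)
    rcases hd _ _ hne with h3 | h3 <;> linarith
  have hyy : ∀ t, y t = y' (τ t) := by
    intro t
    have h1 := hval t
    rw [hcell t] at h1
    linarith
  have hmono : StrictMono τ := by
    intro t t' htt
    have h1 := hy.1 htt
    rw [hyy t, hyy t'] at h1
    exact hy'.1.lt_iff_lt.mp h1
  have hτ1 : ∀ t, τ t = t := by
    intro t
    have h1 : (τ : Fin n → Fin n) = id := hmono.eq_id
    rw [h1]; rfl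
  funext t
  rw [hcell t, hτ1 t]

/-- The alcoves of a disjoint system of cells pack any region that contains them. -/
lemma OPack.cells (hd : CellDisj a h) {X : Set (Fin n → ℝ)} (P : (Fin n → V) → Prop)
    (hX : ∀ c, P c → ∀ y ∈ ordS n h, cellPt a c y ∈ X) :
    OPack n (fun _ : {c // P c} => h) X := by
  refine ⟨fun c => cellPerm a c.1, fun c j => a (c.1 (cellPerm a c.1 j)), ?_, ?_⟩
  · intro c y hy
    exact hX c.1 c.2 y hy
  · intro c c' hne y hy y' hy'
    exact cellPt_disj hd (fun h => hne (Subtype.ext h)) hy hy'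

end cells

end Vale.Agent.P209
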