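import Mathlib
import Vale.Agent.P209.Cells

/-!
A calculus of packings with multisets of sizes.
-/

namespace Vale.Agent.P209

variable {n : ℕ}

lemma exists_embedding_of_map_le {ι κ : Type} [Fintype ι] [Fintype κ] (ρ : ι → ℝ) (τ : κ → ℝ)
    (h : Finset.univ.val.map ρ ≤ Finset.univ.val.map τ) :
    ∃ e : ι → κ, Function.Injective e ∧ ∀ i, τ (e i) = ρ i := by
  classical
  have hc : ∀ x, Fintype.card {i // ρ i = x} ≤ Fintype.card {k // τ k = x} := by
    intro x
    have h1 := Multiset.le_iff_count.mp h x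
    rw [Multiset.count_map, Multiset.count_map] at h1
    rw [Fintype.card_subtype, Fintype.card_subtype]
    have e1 : (Finset.univ.filter (fun i => ρ i = x)).card =
        Multiset.card (Multiset.filter (fun a => x = ρ a) Finset.univ.val) := by
      rw [Finset.card_def, Finset.filter_val]
      congr 1
      apply Multiset.filter_congr
      intro a _
      exact eq_comm
    have e2 : (Finset.univ.filter (fun i => τ i = x)).card =
        Multiset.card (Multiset.filter (fun a => x = τ a) Finset.univ.val) := by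
      rw [Finset.card_def, Finset.filter_val]
      congr 1
      apply Multiset.filter_congr
      intro a _
      exact eq_comm
    rw [e1, e2]
    exact h1
  have hemb : ∀ x, Nonempty ({i // ρ i = x} ↪ {k // τ k = x}) := fun x =>
    Function.Embedding.nonempty_of_card_le (hc x)
  have g : ∀ x, {i // ρ i = x} ↪ {k // τ k = x} := fun x => Classical.choice (hemb x)
  refine ⟨fun i => (g (ρ i) ⟨i, rfl⟩).1, ?_, fun i => (g (ρ i) ⟨i, rfl⟩).2⟩
  intro i i' hii
  have h1 : ρ i = ρ i' := by
    rw [← (g (ρ i) ⟨i, rfl⟩).2, ← (g (ρ i') ⟨i', rfl⟩).2]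
    exact congrArg τ hii
  have key : ∀ x (hi : ρ i = x) (hi' : ρ i' = x), (g x ⟨i, hi⟩).1 = (g x ⟨i', hi'⟩).1 → i = i' := by
    intro x hi hi' hg
    have := (g x).injective (Subtype.ext hg)
    simpa using this
  apply key (ρ i') h1 rfl
  have h2 : ∀ x (hx : ρ i = x), (g x ⟨i, hx⟩).1 = (g (ρ i) ⟨i, rfl⟩).1 := by
    intro x hx
    subst hx
    rfl
  rw [h2 (ρ i') h1]
  exact hii

/-- Every family of simplices whose sizes form a sub-multiset of `m` packs the region `X`. -/
def OP (n : ℕ) (m : Multiset ℝ) (X : Set (Fin n → ℝ)) : Prop :=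
  ∀ (ι : Type) (_ : Fintype ι) (ρ : ι → ℝ), Finset.univ.val.map ρ ≤ m → OPack n ρ X

lemma OP.of_oPack {κ : Type} [Fintype κ] {τ : κ → ℝ} {X : Set (Fin n → ℝ)} (h : OPack n τ X)
    {m : Multiset ℝ} (hm : m ≤ Finset.univ.val.map τ) : OP n m X := by
  intro ι _ ρ hρ
  obtain ⟨e, he, hτ⟩ := exists_embedding_of_map_le ρ τ (hρ.trans hm)
  have h1 := h.reindex e he
  have h2 : (fun k => τ (e k)) = ρ := funext hτ
  rwa [h2] at h1

lemma OP.le {m m' : Multiset ℝ} {X : Set (Fin n → ℝ)} (h : OP n m X) (hm : m' ≤ m) : OP n m' X :=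
  fun ι _ ρ hρ => h ι _ ρ (hρ.trans hm)

lemma exists_family (m : Multiset ℝ) :
    ∃ τ : Fin (Multiset.card m) → ℝ, Finset.univ.val.map τ = m := by
  obtain ⟨l, rfl⟩ := Quot.exists_rep m
  refine ⟨fun i => l.get i, ?_⟩
  have : (Finset.univ : Finset (Fin l.length)).val = (List.finRange l.length : Multiset (Fin l.length)) := rfl
  change Multiset.map (fun i => l.get i) (Finset.univ : Finset (Fin l.length)).val = _
  rw [this, Multiset.map_coe]
  congr 1
  exact List.map_get_finRange l

lemma OPack.replace {κ₁ κ₂ : Type} {τ₁ : κ₁ → ℝ} {τ₂ : κ₂ → ℝ} {H : ℝ} {X : Set (Fin n → ℝ)}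
    (h : OPack n (Sum.elim (fun _ : Unit => H) τ₂) X) (h' : OPack n τ₁ (ordS n H)) :
    OPack n (Sum.elim τ₁ τ₂) X := by
  let κ : Unit ⊕ κ₂ → Type := fun i => Sum.elim (fun _ => κ₁) (fun _ => Unit) i
  let τ : (i : Unit ⊕ κ₂) → κ i → ℝ := fun i =>
    match i with
    | Sum.inl _ => fun k => τ₁ k
    | Sum.inr l => fun _ => τ₂ l
  have h1 : OPack n (fun p : (i : Unit ⊕ κ₂) × κ i => τ p.1 p.2) X := by
    apply OPack.sigma h
    intro i
    match i with
    | Sum.inl _ => exact h'
    | Sum.inr l =>
      have : Subsingleton (κ (Sum.inr l)) := inferInstanceAs (Subsingleton Unit)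
      exact OPack.single _ (fun _ => le_rfl)
  let e : κ₁ ⊕ κ₂ → (i : Unit ⊕ κ₂) × κ i := fun x =>
    match x with
    | Sum.inl k => ⟨Sum.inl (), k⟩
    | Sum.inr l => ⟨Sum.inr l, ()⟩
  have he : Function.Injective e := by
    rintro (k | l) (k' | l') hkl
    · simp only [e] at hkl
      have := eq_of_heq (Sigma.mk.inj hkl).2
      rw [this]
    · simp only [e] at hkl
      exact absurd (Sigma.mk.inj hkl).1 (by simp)
    · simp only [e] at hkl
      exact absurd (Sigma.mk.inj hkl).1 (by simp)
    · simp only [e] at hkl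
      have := (Sigma.mk.inj hkl).1
      simpa using this
  have h2 := h1.reindex e he
  convert h2 using 1
  funext x
  rcases x with k | l <;> rfl

lemma map_univ_sum {ι κ : Type} [Fintype ι] [Fintype κ] (f : ι → ℝ) (g : κ → ℝ) :
    (Finset.univ : Finset (ι ⊕ κ)).val.map (Sum.elim f g) =
      (Finset.univ : Finset ι).val.map f + (Finset.univ : Finset κ).val.map g := by
  have : (Finset.univ : Finset (ι ⊕ κ)).val =
      (Finset.univ : Finset ι).val.map Sum.inl + (Finset.univ : Finset κ).val.map Sum.inr := rfl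
  rw [this, Multiset.map_add, Multiset.map_map, Multiset.map_map]
  rfl

lemma OP.replace {H : ℝ} {m m' : Multiset ℝ} {X : Set (Fin n → ℝ)} (h : OP n (H ::ₘ m) X)
    (h' : OP n m' (ordS n H)) : OP n (m' + m) X := by
  obtain ⟨τ₁, h1⟩ := exists_family m'
  obtain ⟨τ₂, h2⟩ := exists_family m
  have e1 : OPack n (Sum.elim (fun _ : Unit => H) τ₂) X := by
    apply h
    rw [map_univ_sum, h2]
    simp
  have e2 : OPack n τ₁ (ordS n H) := h' _ _ τ₁ h1.le
  have e3 := e1.replace e2
  apply OP.of_oPack e3
  rw [map_univ_sum, h1, h2]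

/-- The containers `C` can be replaced by `I` in every packing. -/
def Fits (n : ℕ) (C I : Multiset ℝ) : Prop :=
  ∀ (X : Set (Fin n → ℝ)) (rest : Multiset ℝ), OP n (C + rest) X → OP n (I + rest) X

lemma Fits.refl (C : Multiset ℝ) : Fits n C C := fun _ _ h => h

lemma Fits.trans {A B C : Multiset ℝ} (h : Fits n A B) (h' : Fits n B C) : Fits n A C :=
  fun X rest hA => h' X rest (h X rest hA)

lemma Fits.drop {C I : Multiset ℝ} (h : I ≤ C) : Fits n C I :=
  fun _ rest hC => hC.le (add_le_add_left h rest)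

lemma Fits.add {C I C' I' : Multiset ℝ} (h : Fits n C I) (h' : Fits n C' I') :
    Fits n (C + C') (I + I') := by
  intro X rest hC
  have h1 := h X (C' + rest) (by rwa [add_assoc] at hC)
  have h2 := h' X (I + rest) (by rwa [add_left_comm] at h1)
  rwa [← add_assoc, add_comm I' I] at h2

lemma Fits.of_op {H : ℝ} {m : Multiset ℝ} (h : OP n m (ordS n H)) : Fits n {H} m := by
  intro X rest hC
  rw [Multiset.singleton_add] at hC
  exact hC.replace h

lemma Fits.apply {C I : Multiset ℝ} {X : Set (Fin n → ℝ)} (h : Fits n C I) (hC : OP n C X) :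
    OP n I X := by
  have := h X 0 (by simpa using hC)
  simpa using this

lemma Fits.sum {ι : Type} (s : Finset ι) {C I : ι → Multiset ℝ} (h : ∀ i ∈ s, Fits n (C i) (I i)) :
    Fits n (∑ i ∈ s, C i) (∑ i ∈ s, I i) := by
  classical
  induction s using Finset.induction_on with
  | empty => simpa using Fits.refl 0
  | insert a s ha ih =>
    rw [Finset.sum_insert ha, Finset.sum_insert ha]
    exact (h a (Finset.mem_insert_self a s)).add
      (ih (fun i hi => h i (Finset.mem_insert_of_mem hi)))

lemma Fits.replicate {H : ℝ} {m : ℕ} {h : ℝ} (hf : Fits n {H} (Multiset.replicate m h)) (K : ℕ) :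
    Fits n (Multiset.replicate K H) (Multiset.replicate (K * m) h) := by
  induction K with
  | zero => simpa using Fits.refl 0
  | succ K ih =>
    have e1 : Multiset.replicate (K + 1) H = Multiset.replicate K H + {H} := by
      rw [Multiset.replicate_add]; rfl
    have e2 : Multiset.replicate ((K + 1) * m) h =
        Multiset.replicate (K * m) h + Multiset.replicate m h := by
      rw [← Multiset.replicate_add]
      congr 1
      ring
    rw [e1, e2]
    exact ih.add hf

lemma OP.single {H h : ℝ} (hH : h ≤ H) : OP n {h} (ordS n H) := by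
  have h1 : OPack n (fun _ : Unit => h) (ordS n H) := OPack.single _ (fun _ => hH)
  apply OP.of_oPack h1
  simp

lemma Fits.shrink {ι : Type} (J : Multiset ι) {f g : ι → ℝ} (h : ∀ j ∈ J, g j ≤ f j) :
    Fits n (J.map f) (J.map g) := by
  induction J using Multiset.induction_on with
  | empty => simpa using Fits.refl 0
  | cons a J ih =>
    rw [Multiset.map_cons, Multiset.map_cons, ← Multiset.singleton_add, ← Multiset.singleton_add]
    exact (Fits.of_op (OP.single (h a (Multiset.mem_cons_self a J)))).add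
      (ih (fun j hj => h j (Multiset.mem_cons_of_mem hj)))

end Vale.Agent.P209
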