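import Mathlib
import Vale.Agent.P209.Fits

/-!
Grids of alcoves and dyadic packings.
-/

namespace Vale.Agent.P209

variable {n : ℕ}

/-- A sequence of positions with gaps at least `h` is a disjoint system of cells. -/
lemma cellDisj_of_succ {pos : ℕ → ℝ} {h : ℝ} (hh : 0 ≤ h) (hs : ∀ v, pos v + h ≤ pos (v + 1)) :
    CellDisj pos h := by
  have hmono : ∀ v v', v < v' → pos v + h ≤ pos v' := by
    intro v v' hv
    induction v', hv using Nat.le_induction with
    | base => exact hs v
    | succ w _ ih =>
      have := hs w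
      linarith
  intro v v' hne
  rcases Nat.lt_or_gt_of_ne hne with h1 | h1
  · left; exact hmono v v' h1
  · right; exact hmono v' v h1

/-- Alcoves indexed by a finite set of functions. -/
lemma op_cells {pos : ℕ → ℝ} {h : ℝ} (hd : CellDisj pos h) (F : Finset (Fin n → ℕ))
    {X : Set (Fin n → ℝ)}
    (hX : ∀ c ∈ F, ∀ y ∈ ordS n h, cellPt pos c y ∈ X) :
    OP n (Multiset.replicate F.card h) X := by
  classical
  have h1 := OPack.cells (n := n) hd (X := X) (fun c => c ∈ F) hX
  apply OP.of_oPack h1
  rw [Multiset.map_const']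
  have : Multiset.card (Finset.univ : Finset {c // c ∈ F}).val = F.card := by
    rw [← Finset.card_def, Finset.card_univ, Fintype.card_coe]
  rw [this]

/-- A simplex of size `H` contains `m ^ n` simplices of size `H / m`. -/
lemma op_split (n : ℕ) {m : ℕ} (hm : 0 < m) {H : ℝ} (hH : 0 ≤ H) :
    OP n (Multiset.replicate (m ^ n) (H / m)) (ordS n H) := by
  classical
  have hm' : (0 : ℝ) < m := by exact_mod_cast hm
  have hh : 0 ≤ H / m := by positivity
  have hd : CellDisj (fun v : ℕ => v * (H / m)) (H / m) := by
    apply cellDisj_of_succ hh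
    intro v
    push_cast
    linarith
  have hcard : (Fintype.piFinset (fun _ : Fin n => Finset.range m)).card = m ^ n := by
    simp
  rw [← hcard]
  apply op_cells hd
  intro c hc y hy
  rw [Fintype.mem_piFinset] at hc
  apply cellPt_mem hd _ _ hy
  · intro t
    positivity
  · intro t
    have h1 : ((c t : ℕ) : ℝ) + 1 ≤ m := by
      exact_mod_cast Finset.mem_range.mp (hc t)
    calc (c t : ℝ) * (H / m) + H / m = ((c t : ℝ) + 1) * (H / m) := by ring
      _ ≤ m * (H / m) := mul_le_mul_of_nonneg_right h1 hh
      _ = H := by field_simp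

lemma fits_split (n : ℕ) {m : ℕ} (hm : 0 < m) {H : ℝ} (hH : 0 ≤ H) (K : ℕ) :
    Fits n (Multiset.replicate K H) (Multiset.replicate (K * m ^ n) (H / m)) :=
  Fits.replicate (Fits.of_op (op_split n hm hH)) K

/-- Corner simplex of size `r` plus the alcoves of size `h` beyond `q * h`. -/
lemma op_corner {h r H : ℝ} {q b : ℕ} (hh : 0 < h) (hrq : r ≤ q * h) (hb : b * h ≤ H) (hr : r ≤ H) :
    OP n (r ::ₘ Multiset.replicate (b ^ n - q ^ n) h) (ordS n H) := by
  classical
  have hd : CellDisj (fun v : ℕ => v * h) h := by
    apply cellDisj_of_succ hh.le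
    intro v
    push_cast
    linarith
  set F : Finset (Fin n → ℕ) := Fintype.piFinset (fun _ : Fin n => Finset.range b) \
    Fintype.piFinset (fun _ : Fin n => Finset.range q) with hF
  have hcard : b ^ n - q ^ n ≤ F.card := by
    have := Finset.le_card_sdiff (Fintype.piFinset (fun _ : Fin n => Finset.range q))
      (Fintype.piFinset (fun _ : Fin n => Finset.range b))
    simpa using this
  have h1 := OPack.cells (n := n) hd (X := {y | y ∈ ordS n H ∧ ∃ j, q * h < y j})
    (fun c => c ∈ F) (by
    intro c hc y hy
    rw [hF, Finset.mem_sdiff, Fintype.mem_piFinset, Fintype.mem_piFinset] at hc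
    obtain ⟨hc1, hc2⟩ := hc
    refine ⟨?_, ?_⟩
    · apply cellPt_mem hd _ _ hy
      · intro t
        positivity
      · intro t
        have h1 : ((c t : ℕ) : ℝ) + 1 ≤ b := by
          exact_mod_cast Finset.mem_range.mp (hc1 t)
        calc (c t : ℝ) * h + h = ((c t : ℝ) + 1) * h := by ring
          _ ≤ b * h := mul_le_mul_of_nonneg_right h1 hh.le
          _ ≤ H := hb
    · push Not at hc2
      obtain ⟨t, ht⟩ := hc2
      obtain ⟨j, hj⟩ := cellPt_exists (a := fun v : ℕ => v * h) (c := c) y t
      refine ⟨j, ?_⟩
      rw [hj]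
      have h2 : (q : ℝ) ≤ c t := by
        have := Finset.mem_range.not.mp ht
        exact_mod_cast not_lt.mp this
      have := hy.2.1 t
      have h3 : (q : ℝ) * h ≤ c t * h := mul_le_mul_of_nonneg_right h2 hh.le
      linarith)
  have h2 : OPack n (Sum.elim (fun _ : Unit => r) (fun _ : {c // c ∈ F} => h)) (ordS n H) := by
    refine OPack.sum (X := ordS n r) (OPack.single _ (fun _ => le_rfl)) h1 ?_ ?_ ?_
    · rw [Set.disjoint_left]
      rintro y hy ⟨-, j, hj⟩
      have := hy.2.2 j
      linarith
    · exact ordS_mono hr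
    · intro y hy
      exact hy.1
  apply OP.of_oPack h2
  rw [map_univ_sum]
  simp only [Finset.univ_unique, Finset.singleton_val, Multiset.map_singleton,
    Multiset.singleton_add]
  apply Multiset.cons_le_cons
  rw [Multiset.map_const']
  have : Multiset.card (Finset.univ : Finset {c // c ∈ F}).val = F.card := by
    rw [← Finset.card_def, Finset.card_univ, Fintype.card_coe]
  rw [this]
  exact (Multiset.replicate_le_replicate h).mpr hcard

/-- Dyadic packing. -/
lemma fits_dyadic (n : ℕ) (D : ℕ) : ∀ (A : Multiset ℕ), (∀ a ∈ A, a ≤ D) → ∀ K : ℕ,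
    (A.map (fun a => (2 ^ n) ^ (D - a))).sum ≤ K * (2 ^ n) ^ D → ∀ H : ℝ, 0 ≤ H →
    Fits n (Multiset.replicate K H) (A.map (fun a => H / 2 ^ a)) := by
  classical
  induction D with
  | zero =>
    intro A hA K hK H hH
    have h0 : ∀ a ∈ A, a = 0 := fun a ha => Nat.le_zero.mp (hA a ha)
    have e1 : A.map (fun a => H / 2 ^ a) = Multiset.replicate (Multiset.card A) H := by
      rw [Multiset.eq_replicate]
      refine ⟨by simp, ?_⟩
      intro x hx
      rw [Multiset.mem_map] at hx
      obtain ⟨a, ha, rfl⟩ := hx
      rw [h0 a ha]; simp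
    have e2 : (A.map (fun a => (2 ^ n) ^ (0 - a))).sum = Multiset.card A := by
      simp
    rw [e1]
    rw [e2] at hK
    apply Fits.drop
    apply (Multiset.replicate_le_replicate H).mpr
    simpa using hK
  | succ D ih =>
    intro A hA K hK H hH
    set A0 := A.filter (fun a => a = 0) with hA0
    set A1 := A.filter (fun a => ¬ a = 0) with hA1
    have hsplit : A = A0 + A1 := (Multiset.filter_add_not _ A).symm
    set k0 := Multiset.card A0 with hk0
    have hA0' : A0 = Multiset.replicate k0 0 := by
      rw [Multiset.eq_replicate]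
      exact ⟨rfl, fun b hb => (Multiset.mem_filter.mp hb).2⟩
    set B := A1.map (fun a => a - 1) with hB
    have hA1pos : ∀ a ∈ A1, a = (a - 1) + 1 := by
      intro a ha
      have := (Multiset.mem_filter.mp ha).2
      omega
    have hP : 0 < (2 ^ n) ^ D := by positivity
    have hsum : k0 * (2 ^ n) ^ (D + 1) + (B.map (fun a => (2 ^ n) ^ (D - a))).sum ≤
        K * (2 ^ n) ^ (D + 1) := by
      have e1 : (A.map (fun a => (2 ^ n) ^ (D + 1 - a))).sum =
          k0 * (2 ^ n) ^ (D + 1) + (B.map (fun a => (2 ^ n) ^ (D - a))).sum := by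
        rw [hsplit, Multiset.map_add, Multiset.sum_add, hA0', Multiset.map_replicate,
          Multiset.sum_replicate, hB, Multiset.map_map]
        congr 1
        · congr 1
          apply Multiset.map_congr rfl
          intro a ha
          have := hA1pos a ha
          simp only [Function.comp]
          congr 1
          omega
      rw [← e1]; exact hK
    have hk0K : k0 ≤ K := by
      have : k0 * (2 ^ n) ^ (D + 1) ≤ K * (2 ^ n) ^ (D + 1) := le_trans (Nat.le_add_right _ _) hsum
      exact Nat.le_of_mul_le_mul_right this (by positivity)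
    obtain ⟨K', rfl⟩ := Nat.exists_eq_add_of_le hk0K
    have hB' : (B.map (fun a => (2 ^ n) ^ (D - a))).sum ≤ (K' * 2 ^ n) * (2 ^ n) ^ D := by
      have : (k0 + K') * (2 ^ n) ^ (D + 1) =
          k0 * (2 ^ n) ^ (D + 1) + (K' * 2 ^ n) * (2 ^ n) ^ D := by ring
      rw [this] at hsum
      exact Nat.le_of_add_le_add_left hsum
    have hBD : ∀ a ∈ B, a ≤ D := by
      intro a ha
      rw [hB, Multiset.mem_map] at ha
      obtain ⟨a', ha', rfl⟩ := ha
      have := hA a' (Multiset.mem_filter.mp ha').1
      omega
    have h1 := ih B hBD (K' * 2 ^ n) hB' (H / 2) (by positivity)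
    have h2 := fits_split n (m := 2) (by norm_num) hH K'
    have h3 : Fits n (Multiset.replicate K' H) (B.map (fun a => (H / 2) / 2 ^ a)) := by
      apply h2.trans
      simpa using h1
    have h4 := (Fits.refl (n := n) (Multiset.replicate k0 H)).add h3
    rw [← Multiset.replicate_add] at h4
    have e3 : A.map (fun a => H / 2 ^ a) =
        Multiset.replicate k0 H + B.map (fun a => (H / 2) / 2 ^ a) := by
      conv_lhs => rw [hsplit]
      rw [Multiset.map_add, hA0', Multiset.map_replicate, hB, Multiset.map_map]
      congr 1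
      · simp
      · apply Multiset.map_congr rfl
        intro a ha
        have h5 := hA1pos a ha
        simp only [Function.comp]
        conv_lhs => rw [h5]
        rw [pow_succ, div_div]
        congr 1
        ring
    rw [e3]
    exact h4

end Vale.Agent.P209
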