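import Mathlib
import Vale.Agent.P209.Grid

/-!
Packing many small simplices into copies of a larger one with little loss of volume.
-/

namespace Vale.Agent.P209

variable {n : ℕ}

lemma sum_singleton_map {J : Type} (s : Finset J) (f : J → ℝ) :
    ∑ j ∈ s, ({f j} : Multiset ℝ) = s.val.map f := by
  have h1 : ∑ j ∈ s, ({f j} : Multiset ℝ) = ((s.val.map f).map (fun x => ({x} : Multiset ℝ))).sum := by
    rw [Multiset.map_map]; rfl
  rw [h1, Multiset.sum_map_singleton]

/-- Choice of a slot size `h / (m * 2 ^ a)` for a small capacity. -/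
lemma exists_slot {M : ℕ} (hM : 0 < M) {h r : ℝ} (hh : 0 < h) (hr : 0 < r) (hrM : r ≤ h / M) :
    ∃ m a : ℕ, M ≤ m ∧ m < 2 * M ∧ r ≤ h / (m * 2 ^ a) ∧
      h / (m * 2 ^ a) ≤ (1 + 1 / M) * r := by
  have hM' : (0 : ℝ) < M := by exact_mod_cast hM
  set t : ℝ := h / r with ht
  have ht0 : 0 < t := by positivity
  have htM : 1 ≤ t / M := by
    rw [le_div_iff₀ hM', ht, one_mul, le_div_iff₀ hr]
    rw [le_div_iff₀ hM'] at hrM
    linarith
  obtain ⟨a, ha1, ha2⟩ := exists_nat_pow_near htM (by norm_num : (1 : ℝ) < 2)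
  have h2a : (0 : ℝ) < 2 ^ a := by positivity
  rw [le_div_iff₀ hM'] at ha1
  rw [div_lt_iff₀ hM'] at ha2
  set m : ℕ := ⌊t / 2 ^ a⌋₊ with hm
  have hm1 : (m : ℝ) ≤ t / 2 ^ a := Nat.floor_le (by positivity)
  have hm2 : t / 2 ^ a < m + 1 := Nat.lt_floor_add_one _
  have hMm : M ≤ m := by
    rw [hm, Nat.le_floor_iff (by positivity), le_div_iff₀ h2a]
    linarith
  have hm2M : m < 2 * M := by
    rw [hm, Nat.floor_lt (by positivity), div_lt_iff₀ h2a]
    push_cast
    rw [pow_succ] at ha2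
    linarith
  have hm0 : (0 : ℝ) < m := by exact_mod_cast lt_of_lt_of_le hM hMm
  rw [le_div_iff₀ h2a] at hm1
  rw [div_lt_iff₀ h2a] at hm2
  refine ⟨m, a, hMm, hm2M, ?_, ?_⟩
  · rw [le_div_iff₀ (by positivity)]
    rw [ht, le_div_iff₀ hr] at hm1
    linarith
  · rw [div_le_iff₀ (by positivity)]
    have h1 : h < (m + 1) * 2 ^ a * r := by
      rw [ht, div_lt_iff₀ hr] at hm2
      exact hm2
    have h2 : (m : ℝ) + 1 ≤ (1 + 1 / M) * m := by
      have : (1 : ℝ) ≤ 1 / M * m := by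
        rw [one_div, inv_mul_eq_div, le_div_iff₀ hM', one_mul]
        exact_mod_cast hMm
      linarith
    calc h ≤ (m + 1) * 2 ^ a * r := h1.le
      _ ≤ ((1 + 1 / M) * m) * 2 ^ a * r := by gcongr
      _ = (1 + 1 / M) * r * (m * 2 ^ a) := by ring

lemma fits_class (n : ℕ) {m : ℕ} (hm : 0 < m) {h : ℝ} (hh : 0 < h) {J : Type} (s : Finset J)
    (a : J → ℕ) (K : ℕ) (hK : ∑ j ∈ s, (1 / ((m : ℝ) * 2 ^ a j)) ^ n ≤ K) :
    Fits n (Multiset.replicate K h) (s.val.map (fun j => h / (m * 2 ^ a j))) := by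
  have hm' : (0 : ℝ) < m := by exact_mod_cast hm
  set D := s.sup a with hD
  have h1 := fits_split n hm hh.le K
  have hle : ∀ j ∈ s, a j ≤ D := fun j hj => Finset.le_sup hj
  have h2 := fits_dyadic n D (s.val.map a) (by
    intro b hb
    rw [Multiset.mem_map] at hb
    obtain ⟨j, hj, rfl⟩ := hb
    exact hle j hj) (K * m ^ n) (by
    rw [Multiset.map_map]
    change ∑ j ∈ s, (2 ^ n) ^ (D - a j) ≤ K * m ^ n * (2 ^ n) ^ D
    have hreal : ((∑ j ∈ s, (2 ^ n) ^ (D - a j) : ℕ) : ℝ) ≤ ((K * m ^ n * (2 ^ n) ^ D : ℕ) : ℝ) := by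
      push_cast
      have e1 : ∀ j ∈ s, ((2 : ℝ) ^ n) ^ (D - a j) =
          (1 / ((m : ℝ) * 2 ^ a j)) ^ n * ((m : ℝ) ^ n * (2 ^ n) ^ D) := by
        intro j hj
        have hj' := hle j hj
        obtain ⟨d, hd⟩ := Nat.exists_eq_add_of_le hj'
        rw [hd, Nat.add_sub_cancel_left, div_pow, one_pow, mul_pow, pow_add, ← pow_mul, ← pow_mul,
          ← pow_mul, mul_comm (a j) n]
        field_simp
      rw [Finset.sum_congr rfl e1, ← Finset.sum_mul, mul_assoc]
      exact mul_le_mul_of_nonneg_right hK (by positivity)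
    exact_mod_cast hreal) (h / m) (by positivity)
  have h3 := h1.trans h2
  rw [Multiset.map_map] at h3
  have e : s.val.map ((fun a => h / m / 2 ^ a) ∘ a) = s.val.map (fun j => h / (m * 2 ^ a j)) := by
    apply Multiset.map_congr rfl
    intro j _
    simp only [Function.comp]
    rw [div_div]
  rwa [e] at h3

lemma sum_replicate' {ι : Type} (s : Finset ι) (K : ι → ℕ) (h : ℝ) :
    ∑ i ∈ s, Multiset.replicate (K i) h = Multiset.replicate (∑ i ∈ s, K i) h := by
  classical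
  induction s using Finset.induction_on with
  | empty => simp
  | insert a s ha ih =>
    rw [Finset.sum_insert ha, Finset.sum_insert ha, ih, Multiset.replicate_add]

/-- Small simplices with total volume a bit less than `K` fit into `K` simplices of size `h`. -/
theorem fits_small (n : ℕ) {M : ℕ} (hM : 0 < M) {h : ℝ} (hh : 0 < h) {J : Type}
    (s : Finset J) (r : J → ℝ) (hr : ∀ j ∈ s, 0 < r j) (hrM : ∀ j ∈ s, r j ≤ h / M) (K : ℕ)
    (hK : (1 + 1 / (M : ℝ)) ^ n * ∑ j ∈ s, (r j / h) ^ n + M ≤ K) :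
    Fits n (Multiset.replicate K h) (s.val.map r) := by
  classical
  have hM' : (0 : ℝ) < M := by exact_mod_cast hM
  have hex : ∀ j, ∃ m a : ℕ, j ∈ s → (M ≤ m ∧ m < 2 * M ∧ r j ≤ h / (m * 2 ^ a) ∧
      h / (m * 2 ^ a) ≤ (1 + 1 / M) * r j) := by
    intro j
    by_cases hj : j ∈ s
    · obtain ⟨m, a, hma⟩ := exists_slot hM hh (hr j hj) (hrM j hj)
      exact ⟨m, a, fun _ => hma⟩
    · exact ⟨0, 0, fun h => absurd h hj⟩
  choose m a hma using hex
  have hmpos : ∀ j ∈ s, (0 : ℝ) < m j := by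
    intro j hj
    exact_mod_cast lt_of_lt_of_le hM (hma j hj).1
  set T := Finset.Ico M (2 * M) with hT
  set Kc : ℕ → ℕ := fun c => ⌈∑ j ∈ s.filter (fun j => m j = c), (1 / ((c : ℝ) * 2 ^ a j)) ^ n⌉₊ with hKc
  -- class by class
  have hclass : ∀ c ∈ T, Fits n (Multiset.replicate (Kc c) h)
      ((s.filter (fun j => m j = c)).val.map (fun j => h / (m j * 2 ^ a j))) := by
    intro c hc
    have hc0 : 0 < c := lt_of_lt_of_le hM (Finset.mem_Ico.mp hc).1
    have h1 := fits_class n hc0 hh (s.filter (fun j => m j = c)) a (Kc c) (Nat.le_ceil _)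
    have e : (s.filter (fun j => m j = c)).val.map (fun j => h / (m j * 2 ^ a j)) =
        (s.filter (fun j => m j = c)).val.map (fun j => h / ((c : ℝ) * 2 ^ a j)) := by
      apply Multiset.map_congr rfl
      intro j hj
      have hj' : j ∈ s.filter (fun j => m j = c) := hj
      rw [(Finset.mem_filter.mp hj').2]
    rw [e]
    exact h1
  have hsum := Fits.sum T hclass
  rw [sum_replicate'] at hsum
  have hfib : ∑ c ∈ T, ((s.filter (fun j => m j = c)).val.map (fun j => h / (m j * 2 ^ a j))) =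
      s.val.map (fun j => h / (m j * 2 ^ a j)) := by
    have e1 : ∀ c ∈ T, ((s.filter (fun j => m j = c)).val.map (fun j => h / (m j * 2 ^ a j))) =
        ∑ j ∈ s.filter (fun j => m j = c), ({h / (m j * 2 ^ a j)} : Multiset ℝ) := by
      intro c _
      rw [sum_singleton_map]
    rw [Finset.sum_congr rfl e1, Finset.sum_fiberwise_of_maps_to, sum_singleton_map]
    intro j hj
    rw [hT, Finset.mem_Ico]
    exact ⟨(hma j hj).1, (hma j hj).2.1⟩
  rw [hfib] at hsum
  -- the number of containers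
  have hcount : ∑ c ∈ T, Kc c ≤ K := by
    have h1 : ((∑ c ∈ T, Kc c : ℕ) : ℝ) ≤
        ∑ c ∈ T, (∑ j ∈ s.filter (fun j => m j = c), (1 / ((c : ℝ) * 2 ^ a j)) ^ n + 1) := by
      push_cast
      apply Finset.sum_le_sum
      intro c _
      exact (Nat.ceil_lt_add_one (Finset.sum_nonneg fun j _ => by positivity)).le
    rw [Finset.sum_add_distrib] at h1
    have h2 : ∑ c ∈ T, (1 : ℝ) = M := by
      have hMM : 2 * M - M = M := by omega
      rw [hT]; simp [hMM]
    have h3 : ∑ c ∈ T, ∑ j ∈ s.filter (fun j => m j = c), (1 / ((c : ℝ) * 2 ^ a j)) ^ n =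
        ∑ j ∈ s, (1 / ((m j : ℝ) * 2 ^ a j)) ^ n := by
      have e2 : ∀ c ∈ T, ∑ j ∈ s.filter (fun j => m j = c), (1 / ((c : ℝ) * 2 ^ a j)) ^ n =
          ∑ j ∈ s.filter (fun j => m j = c), (1 / ((m j : ℝ) * 2 ^ a j)) ^ n := by
        intro c _
        apply Finset.sum_congr rfl
        intro j hj
        rw [(Finset.mem_filter.mp hj).2]
      rw [Finset.sum_congr rfl e2, Finset.sum_fiberwise_of_maps_to]
      intro j hj
      rw [hT, Finset.mem_Ico]
      exact ⟨(hma j hj).1, (hma j hj).2.1⟩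
    have h4 : ∑ j ∈ s, (1 / ((m j : ℝ) * 2 ^ a j)) ^ n ≤
        (1 + 1 / (M : ℝ)) ^ n * ∑ j ∈ s, (r j / h) ^ n := by
      rw [Finset.mul_sum]
      apply Finset.sum_le_sum
      intro j hj
      rw [← mul_pow]
      have := hmpos j hj
      apply pow_le_pow_left₀ (by positivity)
      have h5 := (hma j hj).2.2.2
      rw [div_le_iff₀ (by positivity)] at h5
      rw [div_le_iff₀ (by positivity), ← mul_div_assoc, div_mul_eq_mul_div, le_div_iff₀ hh]
      linarith
    rw [h2, h3] at h1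
    have h6 : ((∑ c ∈ T, Kc c : ℕ) : ℝ) ≤ K := by linarith
    exact_mod_cast h6
  have h7 : Fits n (Multiset.replicate K h) (Multiset.replicate (∑ c ∈ T, Kc c) h) :=
    Fits.drop ((Multiset.replicate_le_replicate h).mpr hcount)
  have h8 := h7.trans hsum
  apply h8.trans
  apply Fits.shrink
  intro j hj
  exact (hma j hj).2.2.1

end Vale.Agent.P209
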