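import Mathlib
import Vale.Agent.P209.Small

/-!
The complement of a large corner simplex.
-/

namespace Vale.Agent.P209

variable {n : ℕ}

/-- Left end points of three groups of cells of length `h`: `a` cells in `[0, e]`, `b` cells in
`[e, e + s]`, and the remaining ones from `e + s` on. -/
noncomputable def pos3 (e s h : ℝ) (a b : ℕ) (v : ℕ) : ℝ :=
  if v < a then v * h else if v < a + b then e + (v - a : ℝ) * h else e + s + (v - a - b : ℝ) * h

lemma pos3_disj {e s h : ℝ} {a b : ℕ} (hh : 0 ≤ h) (ha : a * h ≤ e) (hb : b * h ≤ s) :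
    CellDisj (pos3 e s h a b) h := by
  apply cellDisj_of_succ hh
  intro v
  unfold pos3
  by_cases h1 : v + 1 < a
  · rw [if_pos (by omega), if_pos h1]
    push_cast
    linarith
  · rw [if_neg h1]
    by_cases h2 : v < a
    · have hva : v + 1 = a := by omega
      have hva' : (v : ℝ) + 1 = a := by exact_mod_cast hva
      rw [if_pos h2]
      by_cases h3 : v + 1 < a + b
      · rw [if_pos h3]
        push_cast
        have e1 : ((v : ℝ) + 1 - a) = 0 := by linarith
        rw [e1]
        have : (v : ℝ) * h + h = a * h := by rw [← hva']; ring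
        linarith
      · rw [if_neg h3]
        have hb0 : b = 0 := by omega
        have hs0 : 0 ≤ s := by rw [hb0] at hb; simpa using hb
        push_cast
        have e1 : ((v : ℝ) + 1 - a - b) = 0 := by rw [hb0]; push_cast; linarith
        rw [e1]
        have : (v : ℝ) * h + h = a * h := by rw [← hva']; ring
        linarith
    · rw [if_neg h2]
      by_cases h3 : v + 1 < a + b
      · rw [if_pos h3, if_pos (by omega)]
        push_cast
        linarith
      · rw [if_neg h3]
        by_cases h4 : v < a + b
        · rw [if_pos h4]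
          have hvab : v + 1 = a + b := by omega
          have hvab' : (v : ℝ) + 1 = a + b := by exact_mod_cast hvab
          push_cast
          have e1 : ((v : ℝ) + 1 - a - b) = 0 := by linarith
          rw [e1]
          have : ((v : ℝ) - a) * h + h = b * h := by
            have : (v : ℝ) - a = b - 1 := by linarith
            rw [this]; ring
          linarith
        · rw [if_neg h4]
          push_cast
          linarith

/-- The corner simplex of size `R - s`, the `2 ^ n - 1` alcoves of size `s` and small alcoves. -/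
lemma op_slab (n : ℕ) {R s h : ℝ} {a b : ℕ} (hh : 0 < h) (hs : 0 < s) (hR : 2 * s ≤ R)
    (ha : a * h ≤ R - 2 * s) (hb : b * h ≤ s) :
    ∃ c : ℕ, (a + 2 * b) ^ n + b ^ n ≤ c + (a + b) ^ n + (2 * b) ^ n ∧
      OP n ((R - s) ::ₘ (Multiset.replicate (2 ^ n - 1) s + Multiset.replicate c h)) (ordS n R) := by
  classical
  set e : ℝ := R - 2 * s with he
  set F0 : Finset (Fin n → ℕ) := Fintype.piFinset (fun _ : Fin n => Finset.range (a + 2 * b)) with hF0
  set F1 : Finset (Fin n → ℕ) := Fintype.piFinset (fun _ : Fin n => Finset.range (a + b)) with hF1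
  set F2 : Finset (Fin n → ℕ) := Fintype.piFinset (fun _ : Fin n => Finset.Ico a (a + 2 * b)) with hF2
  set F : Finset (Fin n → ℕ) := F0 \ (F1 ∪ F2) with hF
  have hc0 : F0.card = (a + 2 * b) ^ n := by rw [hF0]; simp
  have hc1 : F1.card = (a + b) ^ n := by rw [hF1]; simp
  have hc2 : F2.card = (2 * b) ^ n := by
    rw [hF2]; simp
  have hc12 : (F1 ∩ F2).card = b ^ n := by
    have : F1 ∩ F2 = Fintype.piFinset (fun _ : Fin n => Finset.Ico a (a + b)) := by
      ext c
      simp only [hF1, hF2, Finset.mem_inter, Fintype.mem_piFinset, Finset.mem_range, Finset.mem_Ico]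
      constructor
      · rintro ⟨h1, h2⟩ t
        exact ⟨(h2 t).1, h1 t⟩
      · intro h1
        exact ⟨fun t => (h1 t).2, fun t => ⟨(h1 t).1, by have := (h1 t).2; omega⟩⟩
    rw [this]
    simp
  have hcount : (a + 2 * b) ^ n + b ^ n ≤ F.card + (a + b) ^ n + (2 * b) ^ n := by
    have h1 := Finset.card_union_add_card_inter F1 F2
    have h2 := Finset.le_card_sdiff (F1 ∪ F2) F0
    rw [hc1, hc2, hc12] at h1
    rw [hc0, ← hF] at h2
    omega
  refine ⟨F.card, hcount, ?_⟩
  -- small alcoves
  have hd := pos3_disj hh.le ha hb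
  have hsmall := OPack.cells (n := n) hd
    (X := {y | y ∈ ordS n R ∧ (∃ j, y j < e) ∧ ∃ j, R - s < y j}) (fun c => c ∈ F) (by
    intro c hc y hy
    rw [hF, Finset.mem_sdiff, Finset.mem_union, not_or] at hc
    obtain ⟨h0, h1, h2⟩ := hc
    rw [hF0, Fintype.mem_piFinset] at h0
    rw [hF1, Fintype.mem_piFinset] at h1
    rw [hF2, Fintype.mem_piFinset] at h2
    push Not at h1 h2
    refine ⟨?_, ?_, ?_⟩
    · apply cellPt_mem hd _ _ hy
      · intro t
        unfold pos3
        by_cases h3 : c t < a
        · rw [if_pos h3]; positivity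
        · rw [if_neg h3]
          have ha0 : 0 ≤ e := le_trans (by positivity) ha
          by_cases h4 : c t < a + b
          · rw [if_pos h4]
            have : (a : ℝ) ≤ c t := by exact_mod_cast not_lt.mp h3
            have : 0 ≤ ((c t : ℝ) - a) * h := mul_nonneg (by linarith) hh.le
            linarith
          · rw [if_neg h4]
            have : (a : ℝ) + b ≤ c t := by exact_mod_cast not_lt.mp h4
            have : 0 ≤ ((c t : ℝ) - a - b) * h := mul_nonneg (by linarith) hh.le
            linarith
      · intro t
        have h5 := Finset.mem_range.mp (h0 t)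
        unfold pos3
        by_cases h3 : c t < a
        · rw [if_pos h3]
          have h6 : (c t : ℝ) + 1 ≤ a := by exact_mod_cast h3
          have h7 : (c t : ℝ) * h + h ≤ a * h := by
            have := mul_le_mul_of_nonneg_right h6 hh.le
            linarith
          linarith
        · rw [if_neg h3]
          by_cases h4 : c t < a + b
          · rw [if_pos h4]
            have h6 : (c t : ℝ) + 1 ≤ a + b := by exact_mod_cast h4
            have h7 : ((c t : ℝ) - a) * h + h ≤ b * h := by
              have := mul_le_mul_of_nonneg_right (show (c t : ℝ) - a + 1 ≤ b by linarith) hh.le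
              linarith
            linarith
          · rw [if_neg h4]
            have h6 : (c t : ℝ) + 1 ≤ a + 2 * b := by exact_mod_cast h5
            have h7 : ((c t : ℝ) - a - b) * h + h ≤ b * h := by
              have := mul_le_mul_of_nonneg_right (show (c t : ℝ) - a - b + 1 ≤ b by linarith) hh.le
              linarith
            linarith
    · obtain ⟨t, ht⟩ := h2
      have h5 := Finset.mem_range.mp (h0 t)
      have h3 : c t < a := by
        by_contra hcon
        exact ht (Finset.mem_Ico.mpr ⟨not_lt.mp hcon, h5⟩)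
      obtain ⟨j, hj⟩ := cellPt_exists (a := pos3 e s h a b) (c := c) y t
      refine ⟨j, ?_⟩
      rw [hj]
      unfold pos3
      rw [if_pos h3]
      have h6 : (c t : ℝ) + 1 ≤ a := by exact_mod_cast h3
      have h7 : (c t : ℝ) * h + h ≤ a * h := by
        have := mul_le_mul_of_nonneg_right h6 hh.le
        linarith
      have := hy.2.2 t
      linarith
    · obtain ⟨t, ht⟩ := h1
      have h3 : a + b ≤ c t := not_lt.mp (fun h => ht (Finset.mem_range.mpr h))
      obtain ⟨j, hj⟩ := cellPt_exists (a := pos3 e s h a b) (c := c) y t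
      refine ⟨j, ?_⟩
      rw [hj]
      unfold pos3
      rw [if_neg (by omega), if_neg (by omega)]
      have h6 : (a : ℝ) + b ≤ c t := by exact_mod_cast h3
      have h7 : 0 ≤ ((c t : ℝ) - a - b) * h := mul_nonneg (by linarith) hh.le
      have := hy.2.1 t
      rw [he]
      linarith)
  -- corner and medium alcoves
  have hdm : CellDisj (fun v : ℕ => e + v * s) s := by
    apply cellDisj_of_succ hs.le
    intro v
    push_cast
    linarith
  set G0 : Finset (Fin n → ℕ) := Fintype.piFinset (fun _ : Fin n => Finset.range 2) with hG0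
  set G1 : Finset (Fin n → ℕ) := Fintype.piFinset (fun _ : Fin n => Finset.range 1) with hG1
  have hGcard : 2 ^ n - 1 ≤ (G0 \ G1).card := by
    have h1 := Finset.le_card_sdiff G1 G0
    have e1 : G0.card = 2 ^ n := by rw [hG0]; simp
    have e2 : G1.card = 1 := by rw [hG1]; simp
    rw [e1, e2] at h1
    exact h1
  have ha0 : 0 ≤ e := le_trans (by positivity) ha
  have hmed := OPack.cells (n := n) hdm
    (X := {y | y ∈ ordS n R ∧ (∀ j, e < y j) ∧ ∃ j, R - s < y j}) (fun c => c ∈ G0 \ G1) (by
    intro c hc y hy
    rw [Finset.mem_sdiff, hG0, hG1, Fintype.mem_piFinset, Fintype.mem_piFinset] at hc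
    obtain ⟨h0, h1⟩ := hc
    push Not at h1
    refine ⟨?_, ?_, ?_⟩
    · apply cellPt_mem hdm _ _ hy
      · intro t
        positivity
      · intro t
        have h5 := Finset.mem_range.mp (h0 t)
        have h6 : (c t : ℝ) + 1 ≤ 2 := by exact_mod_cast h5
        have h7 : (c t : ℝ) * s + s ≤ 2 * s := by
          have := mul_le_mul_of_nonneg_right h6 hs.le
          linarith
        linarith
    · intro j
      unfold cellPt
      have h5 := hy.2.1 (cellPerm (fun v : ℕ => e + v * s) c j)
      have h6 : 0 ≤ ((c (cellPerm (fun v : ℕ => e + v * s) c j) : ℕ) : ℝ) * s := by positivity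
      linarith
    · obtain ⟨t, ht⟩ := h1
      have h3 : 1 ≤ c t := not_lt.mp (fun h => ht (Finset.mem_range.mpr h))
      obtain ⟨j, hj⟩ := cellPt_exists (a := fun v : ℕ => e + v * s) (c := c) y t
      refine ⟨j, ?_⟩
      rw [hj]
      have h6 : (1 : ℝ) ≤ c t := by exact_mod_cast h3
      have h7 : 1 * s ≤ (c t : ℝ) * s := mul_le_mul_of_nonneg_right h6 hs.le
      have := hy.2.1 t
      rw [he]
      linarith)
  have h2 : OPack n (Sum.elim (fun _ : Unit => R - s) (fun _ : {c // c ∈ G0 \ G1} => s))
      {y | y ∈ ordS n R ∧ ((∀ j, y j < R - s) ∨ ∀ j, e < y j)} := by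
    refine OPack.sum (X := ordS n (R - s)) (OPack.single _ (fun _ => le_rfl)) hmed ?_ ?_ ?_
    · rw [Set.disjoint_left]
      rintro y hy ⟨-, -, j, hj⟩
      have := hy.2.2 j
      linarith
    · intro y hy
      exact ⟨ordS_mono (by linarith) hy, Or.inl hy.2.2⟩
    · rintro y ⟨h3, h4, -⟩
      exact ⟨h3, Or.inr h4⟩
  have h3 : OPack n (Sum.elim (Sum.elim (fun _ : Unit => R - s) (fun _ : {c // c ∈ G0 \ G1} => s))
      (fun _ : {c // c ∈ F} => h)) (ordS n R) := by
    refine OPack.sum h2 hsmall ?_ ?_ ?_
    · rw [Set.disjoint_left]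
      rintro y ⟨-, hy⟩ ⟨-, ⟨j, hj⟩, j', hj'⟩
      rcases hy with hy | hy
      · have := hy j'
        linarith
      · have := hy j
        linarith
    · rintro y ⟨hy, -⟩
      exact hy
    · rintro y ⟨hy, -⟩
      exact hy
  apply OP.of_oPack h3
  rw [map_univ_sum, map_univ_sum]
  simp only [Finset.univ_unique, Finset.singleton_val, Multiset.map_singleton,
    Multiset.map_const']
  have e1 : Multiset.card (Finset.univ : Finset {c // c ∈ G0 \ G1}).val = (G0 \ G1).card := by
    rw [← Finset.card_def, Finset.card_univ, Fintype.card_coe]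
  have e2 : Multiset.card (Finset.univ : Finset {c // c ∈ F}).val = F.card := by
    rw [← Finset.card_def, Finset.card_univ, Fintype.card_coe]
  rw [e1, e2, Multiset.singleton_add, Multiset.cons_add]
  apply Multiset.cons_le_cons
  exact add_le_add_left ((Multiset.replicate_le_replicate s).mpr hGcard) _

end Vale.Agent.P209
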