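import Mathlib
import Vale.Agent.P209.Slab

/-!
Packings with at most `2 ^ n` large simplices and arbitrarily many small ones.
-/

namespace Vale.Agent.P209

variable {n : ℕ}

lemma pow_diff_le (m : ℕ) {x y : ℝ} (hx : 0 ≤ x) (hxy : x ≤ y) :
    y ^ (m + 1) - x ^ (m + 1) ≤ (m + 1) * (y - x) * y ^ m := by
  induction m with
  | zero => simp
  | succ m ih =>
    have hy : 0 ≤ y := hx.trans hxy
    have h1 : y ^ (m + 1 + 1) - x ^ (m + 1 + 1) =
        y * (y ^ (m + 1) - x ^ (m + 1)) + x ^ (m + 1) * (y - x) := by ring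
    have h2 : x ^ (m + 1) ≤ y ^ (m + 1) := pow_le_pow_left₀ hx hxy _
    have h3 : x ^ (m + 1) * (y - x) ≤ y ^ (m + 1) * (y - x) :=
      mul_le_mul_of_nonneg_right h2 (by linarith)
    have h4 : y * (y ^ (m + 1) - x ^ (m + 1)) ≤ y * ((m + 1) * (y - x) * y ^ m) :=
      mul_le_mul_of_nonneg_left ih hy
    have h5 : y * ((m + 1) * (y - x) * y ^ m) + y ^ (m + 1) * (y - x) =
        ((m + 1 : ℕ) + 1) * (y - x) * y ^ (m + 1) := by push_cast; ring
    rw [h1]
    linarith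

lemma ceil_pow_le (m : ℕ) {x N : ℝ} (hx : 0 ≤ x) (hN : 1 ≤ N) (hxN : x ≤ N) :
    ((⌈x⌉₊ : ℕ) : ℝ) ^ (m + 1) ≤ x ^ (m + 1) + (m + 1) * (2 * N) ^ m := by
  have h1 : ((⌈x⌉₊ : ℕ) : ℝ) ≤ x + 1 := (Nat.ceil_lt_add_one hx).le
  have h2 : ((⌈x⌉₊ : ℕ) : ℝ) ^ (m + 1) ≤ (x + 1) ^ (m + 1) :=
    pow_le_pow_left₀ (Nat.cast_nonneg _) h1 _
  have h3 := pow_diff_le m hx (show x ≤ x + 1 by linarith)
  have h4 : (x + 1) ^ m ≤ (2 * N) ^ m := pow_le_pow_left₀ (by linarith) (by linarith) _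
  have h5 : ((m : ℝ) + 1) * (x + 1 - x) * (x + 1) ^ m ≤ (m + 1) * (2 * N) ^ m := by
    have : ((m : ℝ) + 1) * (x + 1 - x) = m + 1 := by ring
    rw [this]
    exact mul_le_mul_of_nonneg_left h4 (by positivity)
  linarith

/-- Each large simplex takes one container of size `s`, the rest is cut into small alcoves. -/
lemma fits_big {J : Type} (B : Finset J) (r : J → ℝ) (q : J → ℕ) {s h : ℝ} {b T : ℕ} (hn : 0 < n)
    (hh : 0 < h) (hb : b * h ≤ s) (hr : ∀ j ∈ B, r j ≤ s) (hq : ∀ j ∈ B, r j ≤ q j * h)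
    (hB : B.card ≤ T) :
    Fits n (Multiset.replicate T s)
      (B.val.map r + Multiset.replicate (∑ j ∈ B, (b ^ n - q j ^ n) + (T - B.card) * b ^ n) h) := by
  classical
  have hs0 : 0 ≤ s := le_trans (by positivity) hb
  have e1 : Multiset.replicate T s = Multiset.replicate B.card s + Multiset.replicate (T - B.card) s := by
    rw [← Multiset.replicate_add]
    congr 1
    omega
  have e2 : Multiset.replicate B.card s = ∑ j ∈ B, ({s} : Multiset ℝ) := by
    rw [sum_singleton_map B (fun _ => s), Multiset.map_const']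
    rfl
  have h1 : Fits n (∑ j ∈ B, ({s} : Multiset ℝ))
      (∑ j ∈ B, ({r j} + Multiset.replicate (b ^ n - q j ^ n) h)) := by
    apply Fits.sum
    intro j hj
    have := op_corner (n := n) hh (hq j hj) hb (hr j hj)
    rw [Multiset.singleton_add]
    exact Fits.of_op this
  rw [Finset.sum_add_distrib, sum_singleton_map B r, sum_replicate'] at h1
  have h2 : Fits n {s} (Multiset.replicate (b ^ n) h) := by
    have h3 := op_corner (n := n) (r := 0) (q := 0) hh (by simp) hb hs0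
    rw [zero_pow hn.ne', Nat.sub_zero] at h3
    exact (Fits.of_op h3).trans (Fits.drop (Multiset.le_cons_self _ _))
  have h3 := Fits.replicate h2 (T - B.card)
  rw [e1, e2]
  have h4 := h1.add h3
  rw [add_assoc, ← Multiset.replicate_add] at h4
  exact h4

lemma sub_pow_cast (b q m : ℕ) : (b : ℝ) ^ m - (q : ℝ) ^ m ≤ ((b ^ m - q ^ m : ℕ) : ℝ) := by
  have h : b ^ m ≤ (b ^ m - q ^ m) + q ^ m := by omega
  have h' : ((b ^ m : ℕ) : ℝ) ≤ ((b ^ m - q ^ m : ℕ) : ℝ) + ((q ^ m : ℕ) : ℝ) := by exact_mod_cast h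
  push_cast at h'
  linarith

lemma fits_big_count {J : Type} (B : Finset J) (q : J → ℕ) (b T n : ℕ) (hB : B.card ≤ T) :
    (T : ℝ) * (b : ℝ) ^ n - ∑ j ∈ B, (q j : ℝ) ^ n ≤
      ((∑ j ∈ B, (b ^ n - q j ^ n) + (T - B.card) * b ^ n : ℕ) : ℝ) := by
  push_cast [Nat.cast_sub hB]
  have h1 : ∑ j ∈ B, ((b : ℝ) ^ n - (q j : ℝ) ^ n) ≤ ∑ j ∈ B, ((b ^ n - q j ^ n : ℕ) : ℝ) :=
    Finset.sum_le_sum fun j _ => sub_pow_cast b (q j) n
  rw [Finset.sum_sub_distrib, Finset.sum_const, nsmul_eq_mul] at h1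
  have h2 : ((T : ℝ) - B.card) * (b : ℝ) ^ n = T * (b : ℝ) ^ n - B.card * (b : ℝ) ^ n := by ring
  rw [h2]
  linarith

/-- The large simplices can be packed so that the rest contains many small alcoves. -/
lemma op_big (m : ℕ) {b0 : ℕ} (hb0 : 2 ≤ b0) {R : ℝ} (hR : 0 < R) {J : Type} (B : Finset J)
    (r : J → ℝ) (hr0 : ∀ j ∈ B, 0 < r j) (hrR : ∀ j ∈ B, r j < R)
    (hpair : ∀ i ∈ B, ∀ j ∈ B, i ≠ j → r i + r j ≤ R) (hB : B.card ≤ 2 ^ (m + 1)) :
    ∃ K : ℕ, OP (m + 1) (B.val.map r + Multiset.replicate K (R / (2 * b0 : ℕ))) (ordS (m + 1) R) ∧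
      ((2 * b0 : ℕ) : ℝ) ^ (m + 1) - ∑ j ∈ B, (r j / (R / (2 * b0 : ℕ))) ^ (m + 1) -
        (3 * (m + 1) + 2 ^ (m + 1) * (m + 1) * 2 ^ m) * ((2 * b0 : ℕ) : ℝ) ^ m ≤ K := by
  classical
  set N : ℝ := ((2 * b0 : ℕ) : ℝ) with hN
  have hN4 : (4 : ℝ) ≤ N := by
    have : (4 : ℝ) ≤ ((2 * b0 : ℕ) : ℝ) := by exact_mod_cast (by omega : 4 ≤ 2 * b0)
    exact this
  have hN0 : 0 < N := by linarith
  set h : ℝ := R / N with hh
  have hhpos : 0 < h := by positivity
  have hNh : N * h = R := by rw [hh]; field_simp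
  set q : J → ℕ := fun j => ⌈r j / h⌉₊ with hq
  have hqr : ∀ j, r j ≤ q j * h := by
    intro j
    have h1 : r j / h ≤ q j := Nat.le_ceil _
    rwa [div_le_iff₀ hhpos] at h1
  have hxN : ∀ j ∈ B, r j / h ≤ N := by
    intro j hj
    rw [div_le_iff₀ hhpos, hNh]
    exact (hrR j hj).le
  have hx0 : ∀ j ∈ B, 0 ≤ r j / h := fun j hj => div_nonneg (hr0 j hj).le hhpos.le
  have hqsum : ∀ B' ⊆ B, ∑ j ∈ B', (q j : ℝ) ^ (m + 1) ≤
      ∑ j ∈ B', (r j / h) ^ (m + 1) + 2 ^ (m + 1) * (m + 1) * 2 ^ m * N ^ m := by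
    intro B' hB'
    have h1 : ∑ j ∈ B', (q j : ℝ) ^ (m + 1) ≤
        ∑ j ∈ B', ((r j / h) ^ (m + 1) + (m + 1) * (2 * N) ^ m) := by
      apply Finset.sum_le_sum
      intro j hj
      exact ceil_pow_le m (hx0 j (hB' hj)) (by linarith) (hxN j (hB' hj))
    rw [Finset.sum_add_distrib, Finset.sum_const, nsmul_eq_mul] at h1
    have h2 : (B'.card : ℝ) ≤ 2 ^ (m + 1) := by
      exact_mod_cast (Finset.card_le_card hB').trans hB
    have h3 : (B'.card : ℝ) * ((m + 1) * (2 * N) ^ m) ≤ 2 ^ (m + 1) * ((m + 1) * (2 * N) ^ m) :=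
      mul_le_mul_of_nonneg_right h2 (by positivity)
    have h4 : (2 : ℝ) ^ (m + 1) * ((m + 1) * (2 * N) ^ m) =
        2 ^ (m + 1) * (m + 1) * 2 ^ m * N ^ m := by rw [mul_pow]; ring
    linarith
  by_cases hcase : ∀ j ∈ B, r j ≤ R / 2
  · -- all large simplices have size at most R / 2
    have hbh : (b0 : ℝ) * h ≤ R / 2 := by
      have : N = 2 * b0 := by rw [hN]; push_cast; ring
      rw [← hNh, this]
      apply le_of_eq
      ring
    have h1 := op_split (m + 1) (m := 2) (by norm_num) hR.le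
    have h2 := fits_big (n := m + 1) B r q (T := 2 ^ (m + 1)) (Nat.succ_pos m) hhpos hbh hcase
      (fun j _ => hqr j) hB
    refine ⟨_, h2.apply (by simpa using h1), ?_⟩
    have h3 := fits_big_count B q b0 (2 ^ (m + 1)) (m + 1) hB
    have h4 := hqsum B (Finset.Subset.refl B)
    have h5 : ((2 ^ (m + 1) : ℕ) : ℝ) * (b0 : ℝ) ^ (m + 1) = N ^ (m + 1) := by
      rw [hN]; push_cast; ring
    rw [h5] at h3
    have h6 : 0 ≤ 3 * ((m : ℝ) + 1) * N ^ m := by positivity
    refine le_trans ?_ h3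
    have h7 : (3 * ((m : ℝ) + 1) + 2 ^ (m + 1) * (m + 1) * 2 ^ m) * N ^ m =
      3 * ((m : ℝ) + 1) * N ^ m + 2 ^ (m + 1) * (m + 1) * 2 ^ m * N ^ m := by ring
    rw [h7]
    linarith
  · push Not at hcase
    obtain ⟨i0, hi0, hbig⟩ := hcase
    set s : ℝ := R - r i0 with hs
    have hspos : 0 < s := by have := hrR i0 hi0; linarith
    have h2s : 2 * s ≤ R := by linarith
    set a : ℕ := ⌊(R - 2 * s) / h⌋₊ with ha
    set b : ℕ := ⌊s / h⌋₊ with hb
    have hah : (a : ℝ) * h ≤ R - 2 * s := by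
      have : (a : ℝ) ≤ (R - 2 * s) / h := Nat.floor_le (div_nonneg (by linarith) hhpos.le)
      rwa [le_div_iff₀ hhpos] at this
    have hbh : (b : ℝ) * h ≤ s := by
      have : (b : ℝ) ≤ s / h := Nat.floor_le (div_nonneg hspos.le hhpos.le)
      rwa [le_div_iff₀ hhpos] at this
    have hah' : R - 2 * s < (a + 1 : ℝ) * h := by
      have : (R - 2 * s) / h < a + 1 := Nat.lt_floor_add_one _
      rwa [div_lt_iff₀ hhpos] at this
    have hbh' : s < (b + 1 : ℝ) * h := by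
      have : s / h < b + 1 := Nat.lt_floor_add_one _
      rwa [div_lt_iff₀ hhpos] at this
    obtain ⟨c, hc, hO⟩ := op_slab (m + 1) hhpos hspos h2s hah hbh
    set B' := B.erase i0 with hB'
    have hB'sub : B' ⊆ B := Finset.erase_subset _ _
    have hB'card : B'.card ≤ 2 ^ (m + 1) - 1 := by
      rw [hB', Finset.card_erase_of_mem hi0]
      omega
    have hrs : ∀ j ∈ B', r j ≤ s := by
      intro j hj
      have := hpair i0 hi0 j (hB'sub hj) (Finset.ne_of_mem_erase hj).symm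
      rw [hs]; linarith
    have h2 := fits_big (n := m + 1) B' r q (T := 2 ^ (m + 1) - 1) (Nat.succ_pos m) hhpos hbh hrs
      (fun j _ => hqr j) hB'card
    set K1 := ∑ j ∈ B', (b ^ (m + 1) - q j ^ (m + 1)) + (2 ^ (m + 1) - 1 - B'.card) * b ^ (m + 1)
      with hK1
    refine ⟨K1 + c, ?_, ?_⟩
    · have h3 : Fits (m + 1)
          ((R - s) ::ₘ (Multiset.replicate (2 ^ (m + 1) - 1) s + Multiset.replicate c h))
          (B.val.map r + Multiset.replicate (K1 + c) h) := by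
        have h4 := (Fits.refl (n := m + 1) ({R - s} : Multiset ℝ)).add
          (h2.add (Fits.refl (n := m + 1) (Multiset.replicate c h)))
        have e1 : B.val.map r + Multiset.replicate (K1 + c) h =
            {R - s} + (B'.val.map r + Multiset.replicate K1 h + Multiset.replicate c h) := by
          have e2 : B.val.map r = {R - s} + B'.val.map r := by
            have e3 : R - s = r i0 := by rw [hs]; ring
            rw [e3, hB', Finset.erase_val, Multiset.singleton_add, ← Multiset.map_cons,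
              Multiset.cons_erase hi0]
          rw [e2, Multiset.replicate_add]
          simp only [add_assoc]
        rw [e1, ← Multiset.singleton_add]
        exact h4
      exact h3.apply hO
    · have h3 := fits_big_count B' q b (2 ^ (m + 1) - 1) (m + 1) hB'card
      rw [← hK1] at h3
      have h4 := hqsum B' hB'sub
      have hcR : ((a : ℝ) + 2 * b) ^ (m + 1) + (b : ℝ) ^ (m + 1) ≤
          c + ((a : ℝ) + b) ^ (m + 1) + (2 * (b : ℝ)) ^ (m + 1) := by exact_mod_cast hc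
      have h5 : ((2 ^ (m + 1) - 1 : ℕ) : ℝ) * (b : ℝ) ^ (m + 1) =
          (2 * (b : ℝ)) ^ (m + 1) - (b : ℝ) ^ (m + 1) := by
        have : (1 : ℕ) ≤ 2 ^ (m + 1) := Nat.one_le_two_pow
        rw [Nat.cast_sub this, mul_pow]
        push_cast
        ring
      rw [h5] at h3
      -- (a + b) h ≤ r i0
      have h6 : (a : ℝ) + b ≤ r i0 / h := by
        rw [le_div_iff₀ hhpos]
        have : ((a : ℝ) + b) * h = a * h + b * h := by ring
        rw [this, hs] at *
        linarith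
      have h7 : ((a : ℝ) + b) ^ (m + 1) ≤ (r i0 / h) ^ (m + 1) :=
        pow_le_pow_left₀ (by positivity) h6 _
      have h8 : N - 3 ≤ (a : ℝ) + 2 * b := by
        have h9 : (N - 3) * h ≤ ((a : ℝ) + 2 * b) * h := by
          have e1 : (N - 3) * h = R - 3 * h := by rw [sub_mul, hNh]
          rw [e1]
          nlinarith
        exact le_of_mul_le_mul_right h9 hhpos
      have h9 : (N - 3) ^ (m + 1) ≤ ((a : ℝ) + 2 * b) ^ (m + 1) :=
        pow_le_pow_left₀ (by linarith) h8 _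
      have h10 := pow_diff_le m (x := N - 3) (y := N) (by linarith) (by linarith)
      have h11 : ((m : ℝ) + 1) * (N - (N - 3)) * N ^ m = 3 * ((m : ℝ) + 1) * N ^ m := by ring
      rw [h11] at h10
      have h12 : ∑ j ∈ B, (r j / h) ^ (m + 1) =
          (r i0 / h) ^ (m + 1) + ∑ j ∈ B', (r j / h) ^ (m + 1) := by
        rw [hB', Finset.add_sum_erase B (fun j => (r j / h) ^ (m + 1)) hi0]
      have h13 : (3 * ((m : ℝ) + 1) + 2 ^ (m + 1) * (m + 1) * 2 ^ m) * N ^ m =
        3 * ((m : ℝ) + 1) * N ^ m + 2 ^ (m + 1) * (m + 1) * 2 ^ m * N ^ m := by ring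
      rw [h12, h13]
      push_cast
      linarith

end Vale.Agent.P209
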