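import Mathlib
import Vale.Agent.P209.Main

/-!
Asymptotic packing theorem: at most `2 ^ n` large balls and arbitrarily many small ones.
-/

namespace Vale.Agent.P209

open Filter Topology

lemma exists_M (n : ℕ) {η : ℝ} (hη : 0 < η) :
    ∃ M : ℕ, 0 < M ∧ (1 + 1 / (M : ℝ)) ^ n * (1 - η) ≤ 1 - η / 2 := by
  have h1 : Tendsto (fun k : ℕ => (1 + 1 / ((k : ℝ) + 1)) ^ n * (1 - η)) atTop
      (𝓝 ((1 + 0) ^ n * (1 - η))) :=
    ((tendsto_const_nhds.add tendsto_one_div_add_atTop_nhds_zero_nat).pow n).mul_const _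
  rw [add_zero, one_pow, one_mul] at h1
  have h2 : 1 - η < 1 - η / 2 := by linarith
  obtain ⟨k, hk⟩ := (h1.eventually (gt_mem_nhds h2)).exists
  refine ⟨k + 1, Nat.succ_pos k, ?_⟩
  push_cast
  exact hk.le

/-- The combinatorial form. -/
theorem op_asymptotic (m : ℕ) {η : ℝ} (hη : 0 < η) :
    ∃ δ : ℝ, 0 < δ ∧ ∀ (R : ℝ), 0 < R → ∀ (J : Type) (_ : Fintype J) (r : J → ℝ),
      (∀ j, 0 < r j) → (∀ i j, i ≠ j → r i + r j ≤ R) →
      (∀ S : Finset J, (∀ j ∈ S, δ * R < r j) → S.card ≤ 2 ^ (m + 1)) →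
      ∑ j, r j ^ (m + 1) ≤ (1 - η) * R ^ (m + 1) →
      OP (m + 1) (Finset.univ.val.map r) (ordS (m + 1) R) := by
  classical
  obtain ⟨M, hM, hMη⟩ := exists_M (m + 1) hη
  have hM' : (0 : ℝ) < M := by exact_mod_cast hM
  set C : ℝ := 3 * ((m : ℝ) + 1) + 2 ^ (m + 1) * (m + 1) * 2 ^ m with hC
  obtain ⟨b1, hb1⟩ := exists_nat_ge (2 * (M + C) / η)
  set b0 : ℕ := b1 + 2 with hb0
  have hb0' : 2 ≤ b0 := by omega
  set N : ℝ := ((2 * b0 : ℕ) : ℝ) with hN
  have hNb : N = 2 * (b1 + 2) := by rw [hN, hb0]; push_cast; ring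
  have hb1' : (0 : ℝ) ≤ b1 := Nat.cast_nonneg _
  have hN1 : 1 ≤ N := by rw [hNb]; linarith
  have hN0 : 0 < N := by linarith
  have hNbig : M + C ≤ η / 2 * N := by
    rw [div_le_iff₀ hη] at hb1
    rw [hNb]
    nlinarith
  refine ⟨1 / (N * M), by positivity, ?_⟩
  intro R hR J _ r hr hpair hcard hvol
  set h : ℝ := R / N with hh
  have hhpos : 0 < h := by positivity
  set B : Finset J := Finset.univ.filter (fun j => 1 / (N * M) * R < r j) with hB
  set S : Finset J := Finset.univ.filter (fun j => ¬ 1 / (N * M) * R < r j) with hS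
  have hsplit : Finset.univ.val.map r = B.val.map r + S.val.map r := by
    rw [← Multiset.map_add, hB, hS]
    congr 1
    exact (Multiset.filter_add_not _ _).symm
  by_cases hη1 : 1 < η
  · -- no simplices at all
    have hR' : 0 < R ^ (m + 1) := by positivity
    have h1 : (1 - η) * R ^ (m + 1) < 0 := mul_neg_of_neg_of_pos (by linarith) hR'
    have h2 : 0 ≤ ∑ j, r j ^ (m + 1) := Finset.sum_nonneg fun j _ => (pow_pos (hr j) _).le
    linarith
  have hrR : ∀ j, r j < R := by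
    intro j
    have h1 : r j ^ (m + 1) ≤ ∑ j, r j ^ (m + 1) :=
      Finset.single_le_sum (f := fun j => r j ^ (m + 1)) (fun j _ => (pow_pos (hr j) _).le)
        (Finset.mem_univ j)
    have h2 : r j ^ (m + 1) < R ^ (m + 1) := by
      have hR' : 0 < R ^ (m + 1) := by positivity
      have : (1 - η) * R ^ (m + 1) < 1 * R ^ (m + 1) :=
        mul_lt_mul_of_pos_right (by linarith) hR'
      linarith
    exact lt_of_pow_lt_pow_left₀ _ hR.le h2
  have hBcard : B.card ≤ 2 ^ (m + 1) := hcard B (fun j hj => (Finset.mem_filter.mp hj).2)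
  obtain ⟨K, hK1, hK2⟩ := op_big m hb0' hR B r (fun j _ => hr j) (fun j _ => hrR j)
    (fun i _ j _ hij => hpair i j hij) hBcard
  have hsmall : ∀ j ∈ S, r j ≤ h / M := by
    intro j hj
    have h1 := not_lt.mp (Finset.mem_filter.mp hj).2
    have h2 : 1 / (N * M) * R = h / M := by rw [hh]; field_simp
    rw [h2] at h1
    exact h1
  have hvol' : ∑ j ∈ B, (r j / h) ^ (m + 1) + ∑ j ∈ S, (r j / h) ^ (m + 1) ≤
      (1 - η) * N ^ (m + 1) := by
    have h1 : ∑ j ∈ B, (r j / h) ^ (m + 1) + ∑ j ∈ S, (r j / h) ^ (m + 1) =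
        ∑ j, (r j / h) ^ (m + 1) := by
      rw [hB, hS]
      exact Finset.sum_filter_add_sum_filter_not _ _ _
    rw [h1]
    have h2 : ∑ j, (r j / h) ^ (m + 1) = (∑ j, r j ^ (m + 1)) / h ^ (m + 1) := by
      rw [Finset.sum_div]
      apply Finset.sum_congr rfl
      intro j _
      rw [div_pow]
    rw [h2, div_le_iff₀ (by positivity)]
    have h3 : (1 - η) * N ^ (m + 1) * h ^ (m + 1) = (1 - η) * R ^ (m + 1) := by
      rw [mul_assoc, ← mul_pow]
      have : N * h = R := by rw [hh]; field_simp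
      rw [this]
    rw [h3]
    exact hvol
  have hfit : (1 + 1 / (M : ℝ)) ^ (m + 1) * ∑ j ∈ S, (r j / h) ^ (m + 1) + M ≤ K := by
    refine le_trans ?_ hK2
    set SB := ∑ j ∈ B, (r j / h) ^ (m + 1) with hSB
    set SS := ∑ j ∈ S, (r j / h) ^ (m + 1) with hSS
    have hSB0 : 0 ≤ SB := Finset.sum_nonneg fun j _ => by
      have := hr j
      positivity
    set θ : ℝ := (1 + 1 / (M : ℝ)) ^ (m + 1) with hθ
    have hθ1 : 1 ≤ θ := by
      apply one_le_pow₀
      have : 0 ≤ 1 / (M : ℝ) := by positivity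
      linarith
    have h1 : θ * SS ≤ θ * ((1 - η) * N ^ (m + 1) - SB) :=
      mul_le_mul_of_nonneg_left (by linarith) (by linarith)
    have h2 : θ * ((1 - η) * N ^ (m + 1)) ≤ (1 - η / 2) * N ^ (m + 1) := by
      rw [← mul_assoc]
      exact mul_le_mul_of_nonneg_right hMη (by positivity)
    have h3 : SB ≤ θ * SB := le_mul_of_one_le_left hSB0 hθ1
    have h4 : (M + C) * N ^ m ≤ η / 2 * N * N ^ m :=
      mul_le_mul_of_nonneg_right hNbig (by positivity)
    have h5 : η / 2 * N * N ^ m = η / 2 * N ^ (m + 1) := by ring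
    have h6 : (1 : ℝ) ≤ N ^ m := one_le_pow₀ hN1
    have h7 : (M : ℝ) ≤ M * N ^ m := le_mul_of_one_le_right hM'.le h6
    have h8 : (M + C) * N ^ m = M * N ^ m + C * N ^ m := by ring
    have h9 : θ * ((1 - η) * N ^ (m + 1) - SB) = θ * ((1 - η) * N ^ (m + 1)) - θ * SB := by ring
    rw [h9] at h1
    have h10 : (1 - η / 2) * N ^ (m + 1) = N ^ (m + 1) - η / 2 * N ^ (m + 1) := by ring
    linarith
  have hF := fits_small (m + 1) hM hhpos S r (fun j _ => hr j) hsmall K hfit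
  rw [hsplit]
  exact ((Fits.refl (n := m + 1) (B.val.map r)).add hF).apply hK1

/-- Asymptotic form of the packing conjecture. -/
theorem asymptotic_balls (n : ℕ) (hn : 1 ≤ n) {η : ℝ} (hη : 0 < η) :
    ∃ δ : ℝ, 0 < δ ∧ ∀ (k : ℕ) (R : ℝ) (r : Fin k → ℝ), 0 < R → (∀ i, 0 < r i) →
      (∀ i j, i ≠ j → r i + r j < R) →
      (Finset.univ.filter (fun i => δ * R < r i)).card ≤ 2 ^ n →
      ∑ i, r i ^ n ≤ (1 - η) * R ^ n → BallPacking n r R := by
  classical
  obtain ⟨m, rfl⟩ : ∃ m, n = m + 1 := ⟨n - 1, by omega⟩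
  obtain ⟨δ, hδ, H⟩ := op_asymptotic m (half_pos hη)
  refine ⟨δ / 2, half_pos hδ, ?_⟩
  intro k R r hR hr hpair hcard hvol
  -- enlarge all capacities slightly
  obtain ⟨t, ht1, ht2, htp, htv⟩ : ∃ t : ℝ, 1 < t ∧ t < 2 ∧
      (∀ i j, i ≠ j → t * (r i + r j) < R) ∧ t ^ (m + 1) * (1 - η) < 1 - η / 2 := by
    have h1 : ∀ᶠ t : ℝ in nhdsWithin 1 (Set.Ioi 1), 1 < t := self_mem_nhdsWithin
    have h2 : ∀ᶠ t : ℝ in nhdsWithin 1 (Set.Ioi 1), t < 2 :=
      nhdsWithin_le_nhds (gt_mem_nhds (by norm_num))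
    have h3 : ∀ᶠ t : ℝ in nhdsWithin 1 (Set.Ioi 1), ∀ i j, i ≠ j → t * (r i + r j) < R := by
      rw [Filter.eventually_all]
      intro i
      rw [Filter.eventually_all]
      intro j
      by_cases hij : i = j
      · exact Filter.Eventually.of_forall (fun _ h => absurd hij h)
      · have hc : ContinuousAt (fun t : ℝ => t * (r i + r j)) 1 := by fun_prop
        have hlt : (fun t : ℝ => t * (r i + r j)) 1 < R := by simpa using hpair i j hij
        filter_upwards [nhdsWithin_le_nhds (hc.eventually (gt_mem_nhds hlt))] with t ht _ using ht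
    have h4 : ∀ᶠ t : ℝ in nhdsWithin 1 (Set.Ioi 1), t ^ (m + 1) * (1 - η) < 1 - η / 2 := by
      have hc : ContinuousAt (fun t : ℝ => t ^ (m + 1) * (1 - η)) 1 := by fun_prop
      have hlt : (fun t : ℝ => t ^ (m + 1) * (1 - η)) 1 < 1 - η / 2 := by
        simp only [one_pow, one_mul]
        linarith
      exact nhdsWithin_le_nhds (hc.eventually (gt_mem_nhds hlt))
    obtain ⟨t, ht⟩ := (h1.and (h2.and (h3.and h4))).exists
    exact ⟨t, ht.1, ht.2.1, ht.2.2.1, ht.2.2.2⟩
  have ht0 : 0 < t := by linarith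
  have hO := H R hR (Fin k) inferInstance (fun i => t * r i) (fun i => mul_pos ht0 (hr i))
    (fun i j hij => by have := htp i j hij; linarith) (by
      intro S hS
      refine le_trans (Finset.card_le_card ?_) hcard
      intro j hj
      rw [Finset.mem_filter]
      refine ⟨Finset.mem_univ _, ?_⟩
      have h1 := hS j hj
      have h2 : t * r j < 2 * r j := mul_lt_mul_of_pos_right ht2 (hr j)
      linarith) (by
      have h1 : ∑ j, (t * r j) ^ (m + 1) = t ^ (m + 1) * ∑ j, r j ^ (m + 1) := by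
        rw [Finset.mul_sum]
        apply Finset.sum_congr rfl
        intro j _
        rw [mul_pow]
      rw [h1]
      calc t ^ (m + 1) * ∑ j, r j ^ (m + 1) ≤ t ^ (m + 1) * ((1 - η) * R ^ (m + 1)) :=
            mul_le_mul_of_nonneg_left hvol (by positivity)
        _ = t ^ (m + 1) * (1 - η) * R ^ (m + 1) := by ring
        _ ≤ (1 - η / 2) * R ^ (m + 1) := mul_le_mul_of_nonneg_right htv.le (by positivity))
  have hP := hO (Fin k) inferInstance (fun i => t * r i) le_rfl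
  refine ballPacking_of_oPack (Nat.succ_pos m) hP (fun i => (hr i).le) ?_
  intro i
  have := hr i
  nlinarith

end Vale.Agent.P209
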