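import Mathlib
import Vale.Agent.P209.Cells

/-!
Packing of at most `2 ^ n` balls.
-/

namespace Vale.Agent.P209

variable {n : ℕ}

/-- Half size alcoves. -/
lemma oPack_half (n : ℕ) {R : ℝ} (hR : 0 < R) :
    OPack n (fun _ : Fin n → Bool => R / 2) (ordS n R) := by
  have hd : CellDisj (fun v : Bool => if v then R / 2 else 0) (R / 2) := by
    intro v v' hne
    cases v <;> cases v' <;> simp at hne ⊢
  have h1 := OPack.cells (n := n) hd (X := ordS n R) (fun _ => True) (by
    intro c _ y hy
    apply cellPt_mem hd _ _ hy
    · intro t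
      split_ifs <;> linarith
    · intro t
      split_ifs <;> linarith)
  exact h1.reindex (fun c => ⟨c, trivial⟩) (fun c c' h => by simpa using h)

/-- A corner simplex of size `R - s` together with the alcoves of size `s` outside of it. -/
lemma oPack_corner (n : ℕ) {R s : ℝ} (hs : 0 < s) (hR : 2 * s ≤ R) :
    OPack n (Sum.elim (fun _ : Unit => R - s) (fun _ : {c : Fin n → Bool // ∃ t, c t = true} => s))
      (ordS n R) := by
  have hd : CellDisj (fun v : Bool => if v then R - s else R - 2 * s) s := by
    intro v v' hne
    cases v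
    · cases v'
      · exact absurd rfl hne
      · left; simp only [Bool.false_eq_true, if_false, if_true]; linarith
    · cases v'
      · right; simp only [Bool.false_eq_true, if_false, if_true]; linarith
      · exact absurd rfl hne
  have h1 := OPack.cells (n := n) hd (X := {y | y ∈ ordS n R ∧ ∃ j, R - s < y j})
    (fun c => ∃ t, c t = true) (by
    rintro c ⟨t, ht⟩ y hy
    refine ⟨?_, ?_⟩
    · apply cellPt_mem hd _ _ hy
      · intro t
        split_ifs <;> linarith
      · intro t
        split_ifs <;> linarith
    · obtain ⟨j, hj⟩ := cellPt_exists (a := fun v : Bool => if v then R - s else R - 2 * s)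
        (c := c) y t
      refine ⟨j, ?_⟩
      rw [hj, ht]
      have := hy.2.1 t
      simp only [if_true]
      linarith)
  refine OPack.sum (X := ordS n (R - s)) (OPack.single _ (fun _ => le_rfl)) h1 ?_ ?_ ?_
  · rw [Set.disjoint_left]
    rintro y hy ⟨-, j, hj⟩
    have := hy.2.2 j
    linarith
  · exact ordS_mono (by linarith)
  · intro y hy
    exact hy.1

lemma card_exists_true (n : ℕ) :
    Fintype.card {c : Fin n → Bool // ∃ t, c t = true} = 2 ^ n - 1 := by
  classical
  have h1 : Fintype.card {c : Fin n → Bool // ¬ (c = fun _ => false)} = 2 ^ n - 1 := by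
    rw [Fintype.card_subtype_compl]
    simp
  rw [← h1]
  apply Fintype.card_congr
  apply Equiv.subtypeEquivRight
  intro c
  constructor
  · rintro ⟨t, ht⟩ hc
    rw [hc] at ht
    simp at ht
  · intro hc
    by_contra hno
    push Not at hno
    apply hc
    funext t
    simpa using hno t

/-- In complex dimension `n`, at most `2 ^ n` balls can be packed as soon as any two of them
satisfy the two ball condition. -/
theorem few_balls (n k : ℕ) (hn : 1 ≤ n) (hk : k ≤ 2 ^ n) (R : ℝ) (r : Fin k → ℝ)
    (hpos : ∀ i, 0 < r i) (hlt : ∀ i, r i < R) (hpair : ∀ i j, i ≠ j → r i + r j < R) :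
    BallPacking n r R := by
  classical
  by_cases hcase : ∀ i, r i < R / 2
  · by_cases hk0 : k = 0
    · subst hk0
      exact ⟨fun i => i.elim0, fun i => i.elim0, fun i => i.elim0, fun i => i.elim0⟩
    have hR : 0 < R := lt_trans (hpos ⟨0, by omega⟩) (hlt ⟨0, by omega⟩)
    have hcard : Fintype.card (Fin k) ≤ Fintype.card (Fin n → Bool) := by simpa using hk
    obtain ⟨e⟩ := Function.Embedding.nonempty_of_card_le hcard
    exact ballPacking_of_oPack hn ((oPack_half n hR).reindex e e.injective)
      (fun i => (hpos i).le) hcase
  · push Not at hcase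
    obtain ⟨i0, hi0⟩ := hcase
    obtain ⟨ρ, hρ1, hρ2, hρ3⟩ : ∃ ρ, r i0 < ρ ∧ ρ < R ∧ ∀ i, i ≠ i0 → ρ < R - r i := by
      have h1 : ∀ᶠ ρ in nhdsWithin (r i0) (Set.Ioi (r i0)), ρ < R :=
        nhdsWithin_le_nhds (gt_mem_nhds (hlt i0))
      have h2 : ∀ᶠ ρ in nhdsWithin (r i0) (Set.Ioi (r i0)), ∀ i, i ≠ i0 → ρ < R - r i := by
        rw [Filter.eventually_all]
        intro i
        by_cases hi : i = i0
        · exact Filter.Eventually.of_forall (fun _ h => absurd hi h)
        · have h3 : r i0 < R - r i := by
            have := hpair i i0 hi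
            linarith
          filter_upwards [nhdsWithin_le_nhds (gt_mem_nhds h3)] with ρ hρ _ using hρ
      have h3 : ∀ᶠ ρ in nhdsWithin (r i0) (Set.Ioi (r i0)), r i0 < ρ := self_mem_nhdsWithin
      obtain ⟨ρ, hρ⟩ := (h1.and (h2.and h3)).exists
      exact ⟨ρ, hρ.2.2, hρ.1, hρ.2.1⟩
    have hs : 0 < R - ρ := by linarith
    have h2s : 2 * (R - ρ) ≤ R := by linarith
    have hO := oPack_corner n hs h2s
    have hcard : Fintype.card {i : Fin k // i ≠ i0} ≤
        Fintype.card {c : Fin n → Bool // ∃ t, c t = true} := by
      rw [card_exists_true]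
      have : Fintype.card {i : Fin k // i ≠ i0} = k - 1 := by
        rw [Fintype.card_subtype_compl]
        simp
      rw [this]
      omega
    obtain ⟨g⟩ := Function.Embedding.nonempty_of_card_le hcard
    set e : Fin k → Unit ⊕ {c : Fin n → Bool // ∃ t, c t = true} :=
      fun i => if h : i = i0 then Sum.inl () else Sum.inr (g ⟨i, h⟩) with he
    have heinj : Function.Injective e := by
      intro i j hij
      simp only [he] at hij
      by_cases hi : i = i0
      · by_cases hj : j = i0
        · rw [hi, hj]
        · rw [dif_pos hi, dif_neg hj] at hij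
          exact absurd hij (by simp)
      · by_cases hj : j = i0
        · rw [dif_neg hi, dif_pos hj] at hij
          exact absurd hij (by simp)
        · rw [dif_neg hi, dif_neg hj] at hij
          have := g.injective (Sum.inr_injective hij)
          simpa using this
    refine ballPacking_of_oPack hn (hO.reindex e heinj) (fun i => (hpos i).le) ?_
    intro i
    by_cases hi : i = i0
    · simp only [he, dif_pos hi, Sum.elim_inl]
      rw [hi]; linarith
    · simp only [he, dif_neg hi, Sum.elim_inr]
      have := hρ3 i hi
      linarith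

end Vale.Agent.P209
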